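import Vale.Agent.P157.Potential
import Vale.Agent.P157.RSPattern
import Vale.Agent.P168.Limit.CavityLaw
import Vale.Agent.P168.Cascade.Moments
import Vale.Agent.P157.Parisi.System

/-!
Gaussian means of cosines of linear forms, and the covariance of the field along a tree.
-/

noncomputable section

open MeasureTheory ProbabilityTheory Finset
open scoped BigOperators

namespace Vale.Agent.P157.Parisi.Site

open Vale.Agent.P168 (Shape shapeRep shapeClass shapeMarks)
open Vale.Agent.P168.Cascade (IsTree mem_class tableLaw)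

variable {ι κ : Type*} [Fintype ι] [Fintype κ]

lemma integral_cos_shift (θ : ℝ) (u : ι → ℝ) :
    ∫ g, Real.cos (θ + dot g u) ∂gam ι = Real.cos θ * Real.exp (-(∑ i, u i ^ 2) / 2) := by
  have hd : Measurable fun g : ι → ℝ => dot g u :=
    measurable_dot.comp (measurable_id.prodMk measurable_const)
  have hi : Integrable (fun g : ι → ℝ => Complex.exp (((θ + dot g u : ℝ) : ℂ) * Complex.I))
      (gam ι) :=
    Integrable.of_bound (by fun_prop : Measurable fun g : ι → ℝ =>
      Complex.exp (((θ + dot g u : ℝ) : ℂ) * Complex.I)).aestronglyMeasurable 1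
      (ae_of_all _ fun g => (Complex.norm_exp_ofReal_mul_I _).le)
  have h1 := integral_re (𝕜 := ℂ) hi
  simp only [RCLike.re_to_complex, Complex.exp_ofReal_mul_I_re] at h1
  rw [h1]
  simp only [Complex.ofReal_add, add_mul, Complex.exp_add, integral_const_mul, integral_cexp_dot,
    Complex.mul_re, Complex.exp_ofReal_mul_I_re, Complex.ofReal_re, Complex.ofReal_im, mul_zero,
    sub_zero]

lemma integral_cos_dot (u : ι → ℝ) :
    ∫ g, Real.cos (dot g u) ∂gam ι = Real.exp (-(∑ i, u i ^ 2) / 2) := by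
  simpa using integral_cos_shift 0 u

lemma integral_cos_gauss (θ c : ℝ) :
    ∫ g, Real.cos (θ + c * g) ∂gaussianReal 0 1 = Real.cos θ * Real.exp (-(c ^ 2) / 2) := by
  have h := integral_cos_shift θ (fun _ : Fin 1 => c)
  simp only [dot, Fin.sum_univ_one] at h
  have e := (measurePreserving_funUnique (gaussianReal 0 1) (Fin 1)).integral_comp
    (MeasurableEquiv.measurableEmbedding _) fun x => Real.cos (θ + c * x)
  rw [← e, ← h]
  refine integral_congr_ae (ae_of_all _ fun g => ?_)
  simp [mul_comm]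

lemma integral_cos_pi_pi (θ : ℝ) (u : κ → ι → ℝ) :
    ∫ ω : κ → ι → ℝ, Real.cos (θ + ∑ p, dot (ω p) (u p)) ∂(Measure.pi fun _ => gam ι) =
      Real.cos θ * Real.exp (-(∑ p, ∑ i, u p i ^ 2) / 2) := by
  have hi : Integrable (fun ω : κ → ι → ℝ =>
      Complex.exp (((θ + ∑ p, dot (ω p) (u p) : ℝ) : ℂ) * Complex.I))
      (Measure.pi fun _ => gam ι) :=
    Integrable.of_bound (by unfold dot; fun_prop : Measurable fun ω : κ → ι → ℝ =>
      Complex.exp (((θ + ∑ p, dot (ω p) (u p) : ℝ) : ℂ) * Complex.I)).aestronglyMeasurable 1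
      (ae_of_all _ fun g => (Complex.norm_exp_ofReal_mul_I _).le)
  have h1 := integral_re (𝕜 := ℂ) hi
  simp only [RCLike.re_to_complex, Complex.exp_ofReal_mul_I_re] at h1
  rw [h1]
  simp only [Complex.ofReal_add, Complex.ofReal_sum, add_mul, Finset.sum_mul, Complex.exp_add,
    Complex.exp_sum, integral_const_mul]
  rw [integral_fintype_prod_eq_prod
    (fun p (x : ι → ℝ) => Complex.exp (((dot x (u p) : ℝ) : ℂ) * Complex.I))]
  simp only [integral_cexp_dot, ← Complex.ofReal_prod, ← Real.exp_sum, Complex.mul_re,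
    Complex.exp_ofReal_mul_I_re, Complex.ofReal_re, Complex.ofReal_im, mul_zero, sub_zero,
    ← Finset.sum_div, Finset.sum_neg_distrib]

/-- A function of finitely many of countably many standard Gaussians. -/
lemma integral_cos_infinite (m : ℕ) (u : ℕ → ℝ) :
    ∫ z, Real.cos (∑ a ∈ Finset.range m, z a * u a)
        ∂(Measure.infinitePi fun _ : ℕ => gaussianReal 0 1) =
      Real.exp (-(∑ a ∈ Finset.range m, u a ^ 2) / 2) := by
  have hmp := Vale.Agent.P168.Limit.Cavity.measurePreserving_marginal (gaussianReal 0 1)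
    (fun i : Fin m => (i : ℕ)) Fin.val_injective
  have hd : Measurable fun g : Fin m → ℝ => Real.cos (dot g fun i => u i) :=
    Real.continuous_cos.measurable.comp (measurable_dot.comp (measurable_id.prodMk measurable_const))
  have e := integral_cos_dot (fun i : Fin m => u i)
  rw [gam, ← hmp.map_eq, integral_map hmp.measurable.aemeasurable hd.aestronglyMeasurable] at e
  simpa only [dot, Finset.sum_range] using e

/-! ### The field along a tree -/

lemma rep_eq_iff_le {r n : ℕ} {v : Shape r n} (hv : IsTree v) {p : ℕ} (hp : p < r) (l l' : Fin n) :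
    shapeRep v (p + 1) l = shapeRep v (p + 1) l' ↔ p < (v l l').val := by
  constructor
  · intro h
    have h1 := hv.class_eq (hv.rep_mem (p + 1) l)
    have h2 := hv.class_eq (hv.rep_mem (p + 1) l')
    rw [← h, h1] at h2
    have h3 := hv.self_mem (p + 1) l'
    rw [← h2, mem_class, if_pos (Nat.succ_le_of_lt hp)] at h3
    omega
  · intro h
    refine (hv.rep_congr (mem_class.2 ?_)).symm
    rw [if_pos (Nat.succ_le_of_lt hp)]
    omega

lemma incr_telescope : ∀ {r : ℕ} (ρ : Fin (r + 1) → ℝ) (q : Fin (r + 1)),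
    ρ 0 + (∑ p : Fin r, if p.val < q.val then ρ p.succ - ρ p.castSucc else 0) = ρ q := by
  intro r ρ q
  have h : ∀ k : ℕ, (hk : k < r + 1) →
      ρ 0 + (∑ p : Fin r, if p.val < k then ρ p.succ - ρ p.castSucc else 0) = ρ ⟨k, hk⟩ := by
    intro k
    induction k with
    | zero => intro hk; simp
    | succ k ih =>
      intro hk
      have hk' : k < r := by omega
      have e : ∀ p : Fin r, (if p.val < k + 1 then ρ p.succ - ρ p.castSucc else 0) =
          (if p.val < k then ρ p.succ - ρ p.castSucc else 0) +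
            if p = ⟨k, hk'⟩ then ρ p.succ - ρ p.castSucc else 0 := by
        intro p
        rcases lt_trichotomy p.val k with h | h | h <;> simp [Fin.ext_iff] <;>
          split_ifs <;> first | omega | simp
      rw [Finset.sum_congr rfl fun p _ => e p, Finset.sum_add_distrib, Finset.sum_ite_eq',
        if_pos (Finset.mem_univ _), ← add_assoc, ih (by omega)]
      simp
  simpa using h q.val q.isLt

/-- The variance of a combination of the fields of the replicas of a tree. -/
def treeVar {r n : ℕ} (ρ : Fin (r + 1) → ℝ) (v : Shape r n) (a : Fin n → ℝ) : ℝ :=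
  ∑ l, ∑ l', a l * a l' * ρ (v l l')

variable {r n : ℕ} {v : Shape r n} {ρ : Fin (r + 1) → ℝ}

/-- The coefficient of the mark at level `p` and representative `x`. -/
def coefMark (ρ : Fin (r + 1) → ℝ) (v : Shape r n) (a : Fin n → ℝ) (p : Fin r) (x : Fin n) : ℝ :=
  Real.sqrt (ρ p.succ - ρ p.castSucc) * ∑ l, if shapeRep v (p.val + 1) l = x then a l else 0

lemma sum_field_eq (a : Fin n → ℝ) (g₀ : ℝ) (ω : Fin r → Fin n → ℝ) :
    ∑ l, a l * pathField ρ g₀ (shapeMarks v ω l) =
      (Real.sqrt (ρ 0) * ∑ l, a l) * g₀ + ∑ p, dot (ω p) (coefMark ρ v a p) := by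
  have e : ∀ p : Fin r, dot (ω p) (coefMark ρ v a p) =
      ∑ l, a l * (Real.sqrt (ρ p.succ - ρ p.castSucc) * ω p (shapeRep v (p.val + 1) l)) := by
    intro p
    simp only [dot, coefMark, Finset.mul_sum, mul_ite, mul_zero]
    rw [Finset.sum_comm]
    refine Finset.sum_congr rfl fun l _ => ?_
    rw [Finset.sum_ite_eq, if_pos (Finset.mem_univ _)]
    ring
  rw [Finset.sum_congr rfl fun p _ => e p, Finset.sum_comm, Finset.mul_sum, Finset.sum_mul,
    ← Finset.sum_add_distrib]
  refine Finset.sum_congr rfl fun l _ => ?_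
  simp only [pathField, shapeMarks, mul_add, Finset.mul_sum]
  ring

lemma sum_fiber_sq {α β : Type*} [Fintype α] [Fintype β] [DecidableEq β] (R : α → β) (a : α → ℝ) :
    ∑ x, (∑ l, if R l = x then a l else 0) ^ 2 =
      ∑ l, ∑ l', if R l = R l' then a l * a l' else 0 := by
  simp only [pow_two, Finset.sum_mul_sum]
  rw [Finset.sum_comm]
  refine Finset.sum_congr rfl fun l _ => ?_
  rw [Finset.sum_comm]
  refine Finset.sum_congr rfl fun l' _ => ?_
  simp only [ite_mul, zero_mul, Finset.sum_ite_eq, Finset.mem_univ, if_true]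
  split_ifs with h1 h2 h2 <;> first | rfl | simp_all

lemma treeVar_eq (hv : IsTree v) (hρ : Monotone ρ) (h0 : 0 ≤ ρ 0) (a : Fin n → ℝ) :
    treeVar ρ v a = (Real.sqrt (ρ 0) * ∑ l, a l) ^ 2 + ∑ p, ∑ x, coefMark ρ v a p x ^ 2 := by
  have e : ∀ p : Fin r, ∑ x, coefMark ρ v a p x ^ 2 = ∑ l, ∑ l',
      a l * a l' * if p.val < (v l l').val then ρ p.succ - ρ p.castSucc else 0 := by
    intro p
    have hd : 0 ≤ ρ p.succ - ρ p.castSucc := sub_nonneg.2 (hρ (Fin.castSucc_le_succ p))
    have h : ∀ x, coefMark ρ v a p x ^ 2 = (ρ p.succ - ρ p.castSucc) *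
        (∑ l, if shapeRep v (p.val + 1) l = x then a l else 0) ^ 2 := fun x => by
      rw [coefMark, mul_pow, Real.sq_sqrt hd]
    rw [Finset.sum_congr rfl fun x _ => h x, ← Finset.mul_sum, sum_fiber_sq, Finset.mul_sum]
    refine Finset.sum_congr rfl fun l _ => ?_
    rw [Finset.mul_sum]
    refine Finset.sum_congr rfl fun l' _ => ?_
    simp only [rep_eq_iff_le hv p.isLt]
    split_ifs <;> ring
  rw [Finset.sum_congr rfl fun p _ => e p, mul_pow, Real.sq_sqrt h0, pow_two (Finset.sum _ _),
    Finset.sum_mul_sum, Finset.mul_sum, Finset.sum_comm (s := (Finset.univ : Finset (Fin r))),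
    treeVar, ← Finset.sum_add_distrib]
  refine Finset.sum_congr rfl fun l _ => ?_
  rw [Finset.mul_sum, Finset.sum_comm, ← Finset.sum_add_distrib]
  refine Finset.sum_congr rfl fun l' _ => ?_
  conv_lhs => rw [← incr_telescope ρ (v l l'), mul_add, Finset.mul_sum]
  ring

lemma treeVar_nonneg (hv : IsTree v) (hρ : Monotone ρ) (h0 : 0 ≤ ρ 0) (a : Fin n → ℝ) :
    0 ≤ treeVar ρ v a := by
  rw [treeVar_eq hv hρ h0]
  positivity

/-- The mean of the cosine of a combination of the fields of the replicas of a tree. -/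
lemma integral_cos_field (hv : IsTree v) (hρ : Monotone ρ) (h0 : 0 ≤ ρ 0) (a : Fin n → ℝ) :
    ∫ g₀, ∫ ω : Fin r → Fin n → ℝ, Real.cos (∑ l, a l * pathField ρ g₀ (shapeMarks v ω l))
        ∂tableLaw (gaussianReal 0 1) r n ∂gaussianReal 0 1 =
      Real.exp (-treeVar ρ v a / 2) := by
  have h1 : ∀ g₀, ∫ ω : Fin r → Fin n → ℝ,
      Real.cos (∑ l, a l * pathField ρ g₀ (shapeMarks v ω l)) ∂tableLaw (gaussianReal 0 1) r n =
      Real.cos ((Real.sqrt (ρ 0) * ∑ l, a l) * g₀) *
        Real.exp (-(∑ p, ∑ x, coefMark ρ v a p x ^ 2) / 2) := by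
    intro g₀
    simp only [sum_field_eq]
    exact integral_cos_pi_pi _ _
  have h2 := integral_cos_gauss 0 (Real.sqrt (ρ 0) * ∑ l, a l)
  simp only [zero_add, Real.cos_zero, one_mul] at h2
  simp only [h1, integral_mul_const, h2, ← Real.exp_add, treeVar_eq hv hρ h0 a]
  congr 1
  ring

end Vale.Agent.P157.Parisi.Site
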