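import Vale.Agent.P157.Parisi.Statements
import Vale.Agent.P157.GaussShift

/-!
Parisi recursions of nonnegative functions of linear growth: growth, nested means, and a bound on
differences by a plain Gaussian mean.
-/

noncomputable section

open MeasureTheory ProbabilityTheory Finset
open scoped BigOperators

namespace Vale.Agent.P157.Parisi.Site

open Vale.Agent.P168 (genNested)
open Vale.Agent.P168.Cascade (Exps top)

/-- Measurable, nonnegative, of linear growth. -/
structure Grow (A : ℝ) (ψ : ℝ → ℝ) : Prop where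
  meas : Measurable ψ
  nonneg : ∀ x, 0 ≤ ψ x
  le : ∀ x, ψ x ≤ A + |x|

lemma integrable_exp_abs (c : ℝ) : Integrable (fun g => Real.exp (c * |g|)) (gaussianReal 0 1) := by
  refine ((integrable_exp_mul_gaussianReal c).add (integrable_exp_mul_gaussianReal (-c))).mono'
    (by fun_prop) (ae_of_all _ fun g => ?_)
  rw [Real.norm_eq_abs, abs_of_pos (Real.exp_pos _)]
  show _ ≤ Real.exp (c * g) + Real.exp (-c * g)
  rcases abs_cases g with ⟨e, -⟩ | ⟨e, -⟩ <;> rw [e] <;>
    simp only [mul_neg, neg_mul] <;>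
    linarith [Real.exp_pos (c * g), Real.exp_pos (-(c * g))]

variable {A : ℝ} {ψ : ℝ → ℝ}

lemma Grow.exp_le (h : Grow A ψ) {m : ℝ} (hm : 0 ≤ m) (x a g : ℝ) :
    Real.exp (m * ψ (x + a * g)) ≤ Real.exp (m * (A + |x|)) * Real.exp (m * |a| * |g|) := by
  rw [← Real.exp_add]
  refine Real.exp_le_exp.2 ?_
  have h1 := mul_le_mul_of_nonneg_left ((h.le _).trans
    (add_le_add le_rfl (abs_add_le x (a * g)))) hm
  rw [abs_mul] at h1
  linarith [h1, mul_assoc m |a| |g|, mul_add m A |x|, mul_add m A (|x| + |a| * |g|),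
    mul_add m |x| (|a| * |g|)]

lemma Grow.integrable_exp (h : Grow A ψ) {m : ℝ} (hm : 0 ≤ m) (x a : ℝ) :
    Integrable (fun g => Real.exp (m * ψ (x + a * g))) (gaussianReal 0 1) :=
  ((integrable_exp_abs (m * |a|)).const_mul _).mono'
    ((h.meas.comp (by fun_prop)).const_mul m).exp.aestronglyMeasurable
    (ae_of_all _ fun g => by
      rw [Real.norm_eq_abs, abs_of_pos (Real.exp_pos _)]; exact h.exp_le hm x a g)

lemma Grow.one_le (h : Grow A ψ) {m : ℝ} (hm : 0 ≤ m) (x a : ℝ) :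
    1 ≤ ∫ g, Real.exp (m * ψ (x + a * g)) ∂(gaussianReal 0 1) := by
  have := integral_mono (integrable_const (1 : ℝ)) (h.integrable_exp hm x a)
    fun g => Real.one_le_exp (mul_nonneg hm (h.nonneg _))
  simpa using this

lemma Grow.layer (h : Grow A ψ) {m : ℝ} (hm : 0 < m) (δ : ℝ) :
    Grow (A + 1 / m * Real.log (∫ g, Real.exp (m * |Real.sqrt δ| * |g|) ∂(gaussianReal 0 1))) (layer m δ ψ) where
  meas := by
    have hM : Measurable fun p : ℝ × ℝ => Real.exp (m * ψ (p.1 + Real.sqrt δ * p.2)) :=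
      ((h.meas.comp (by fun_prop)).const_mul m).exp
    exact (hM.stronglyMeasurable.integral_prod_right' (ν := (gaussianReal 0 1))).measurable.log.const_mul _
  nonneg x := mul_nonneg (by positivity) (Real.log_nonneg (h.one_le hm.le x _))
  le x := by
    set J := ∫ g, Real.exp (m * |Real.sqrt δ| * |g|) ∂(gaussianReal 0 1)
    have hJ : 1 ≤ J := by
      have := integral_mono (integrable_const (1 : ℝ)) (integrable_exp_abs (m * |Real.sqrt δ|))
        fun g => Real.one_le_exp (by positivity)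
      simpa using this
    have hb : ∫ g, Real.exp (m * ψ (x + Real.sqrt δ * g)) ∂(gaussianReal 0 1) ≤ Real.exp (m * (A + |x|)) * J := by
      rw [← integral_const_mul]
      exact integral_mono (h.integrable_exp hm.le x _) ((integrable_exp_abs _).const_mul _)
        fun g => h.exp_le hm.le x _ g
    have h1 := Real.log_le_log (zero_lt_one.trans_le (h.one_le hm.le x _)) hb
    rw [Real.log_mul (Real.exp_pos _).ne' (by linarith), Real.log_exp] at h1
    have h2 := mul_le_mul_of_nonneg_left h1 (by positivity : (0 : ℝ) ≤ 1 / m)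
    rw [mul_add, ← mul_assoc, one_div_mul_cancel hm.ne', one_mul] at h2
    show 1 / m * Real.log _ ≤ _
    linarith

lemma Grow.level : ∀ {r : ℕ} {m : Fin r → ℝ}, (∀ i, 0 < m i) → ∀ (ρ : Fin (r + 1) → ℝ) {A : ℝ}
    {ψ : ℝ → ℝ}, Grow A ψ → ∃ A', Grow A' (level m ρ ψ 0)
  | 0, _, _, _, A, _, h => ⟨A, h⟩
  | r + 1, m, hm, ρ, A, ψ, h => by
    obtain ⟨A', h'⟩ := Grow.level (m := Fin.tail m) (fun i => hm _) (Fin.tail ρ) h
    exact ⟨_, h'.layer (hm 0) (ρ 1 - ρ 0)⟩

lemma layer_add_const {F : ℝ → ℝ} (hF : Grow A F) {m : ℝ} (hm : 0 < m) (δ c x : ℝ) :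
    layer m δ (fun y => c + F y) x = c + layer m δ F x := by
  have e : (fun g => Real.exp (m * (c + F (x + Real.sqrt δ * g)))) =
      fun g => Real.exp (m * c) * Real.exp (m * F (x + Real.sqrt δ * g)) :=
    funext fun g => by rw [← Real.exp_add, mul_add]
  rw [Vale.Agent.P157.Parisi.layer, Vale.Agent.P157.Parisi.layer, e, integral_const_mul,
    Real.log_mul (Real.exp_pos _).ne' (zero_lt_one.trans_le (hF.one_le hm.le x _)).ne',
    Real.log_exp]
  field_simp

lemma level_add_const : ∀ {r : ℕ} {m : Fin r → ℝ}, (∀ i, 0 < m i) → ∀ (ρ : Fin (r + 1) → ℝ) {A : ℝ}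
    {ψ : ℝ → ℝ}, Grow A ψ → ∀ c x : ℝ,
    level m ρ (fun y => c + ψ y) 0 x = c + level m ρ ψ 0 x
  | 0, _, _, _, _, _, _, _, _ => rfl
  | r + 1, m, hm, ρ, A, ψ, h, c, x => by
    obtain ⟨A', h'⟩ := Grow.level (m := Fin.tail m) (fun i => hm _) (Fin.tail ρ) h
    have e : level (Fin.tail m) (Fin.tail ρ) (fun y => c + ψ y) 0 =
        fun y => c + level (Fin.tail m) (Fin.tail ρ) ψ 0 y :=
      funext fun y => level_add_const (fun i => hm _) _ h c y
    show layer (m 0) (ρ 1 - ρ 0) (level (Fin.tail m) (Fin.tail ρ) (fun y => c + ψ y) 0) x = _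
    rw [e, layer_add_const h' (hm 0)]
    rfl

/-- The recursion as a nested mean. -/
lemma genNested_exp : ∀ {r : ℕ} {m : Fin r → ℝ}, (∀ i, 0 < m i) → ∀ (ρ : Fin (r + 1) → ℝ) {A : ℝ}
    {ψ : ℝ → ℝ}, Grow A ψ → ∀ x : ℝ,
    genNested (gaussianReal 0 1) m (fun ω => Real.exp (ψ (x + ∑ p : Fin r,
      Real.sqrt (ρ p.succ - ρ p.castSucc) * ω p))) = Real.exp (level m ρ ψ 0 x)
  | 0, _, _, _, _, _, _, x => by simp [genNested, level]
  | r + 1, m, hm, ρ, A, ψ, h, x => by
    obtain ⟨A', h'⟩ := Grow.level (m := Fin.tail m) (fun i => hm _) (Fin.tail ρ) h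
    have hin : ∀ b, genNested (gaussianReal 0 1) (Fin.tail m) (fun ω => Real.exp (ψ (x + ∑ p : Fin (r + 1),
        Real.sqrt (ρ p.succ - ρ p.castSucc) * (Fin.cons b ω : Fin (r + 1) → ℝ) p))) =
        Real.exp (level (Fin.tail m) (Fin.tail ρ) ψ 0 (x + Real.sqrt (ρ 1 - ρ 0) * b)) := by
      intro b
      rw [← genNested_exp (m := Fin.tail m) (fun i => hm _) (Fin.tail ρ) h (x + Real.sqrt (ρ 1 - ρ 0) * b)]
      congr 1
      funext ω
      simp only [Fin.sum_univ_succ, Fin.cons_zero, Fin.cons_succ, Fin.succ_zero_eq_one,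
        Fin.castSucc_zero, Fin.tail, Fin.castSucc_succ, add_assoc]
    show (∫ b, (genNested (gaussianReal 0 1) (Fin.tail m) fun ω => Real.exp (ψ (x + ∑ p : Fin (r + 1),
      Real.sqrt (ρ p.succ - ρ p.castSucc) * (Fin.cons b ω : Fin (r + 1) → ℝ) p))) ^ m 0 ∂(gaussianReal 0 1)) ^
        (1 / m 0) = _
    simp only [hin, ← Real.exp_mul, mul_comm (level _ _ _ _ _) (m 0)]
    rw [Real.rpow_def_of_pos (zero_lt_one.trans_le (h'.one_le (hm 0).le x _)), mul_comm]
    rfl

lemma exp_mul_le (m u : ℝ) (h0 : 0 ≤ m) (h1 : m ≤ 1) :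
    Real.exp (m * u) ≤ m * Real.exp u + (1 - m) := by
  have := convexOn_exp.2 (Set.mem_univ u) (Set.mem_univ 0) h0 (sub_nonneg.2 h1)
    (add_sub_cancel m 1)
  simpa using this

/-- The mean of a function under a shift by a centred Gaussian. -/
def spread (σ : ℝ) (h : ℝ → ℝ) (x : ℝ) : ℝ := ∫ g, h (x + Real.sqrt σ * g) ∂(gaussianReal 0 1)

lemma integrable_envelope {h : ℝ → ℝ} (hm : Measurable h) {B : ℝ}
    (hb : ∀ x, |h x| ≤ B * Real.exp |x|) (a b x : ℝ) :
    Integrable (fun p : ℝ × ℝ => h (x + a * p.1 + b * p.2)) (Measure.prod (gaussianReal 0 1) (gaussianReal 0 1)) := by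
  have hB : 0 ≤ B := by simpa using (abs_nonneg _).trans (hb 0)
  refine ((((integrable_exp_abs |a|).mul_prod (integrable_exp_abs |b|))).const_mul
    (B * Real.exp |x|)).mono' (hm.comp (by fun_prop)).aestronglyMeasurable (ae_of_all _ fun p => ?_)
  rw [Real.norm_eq_abs]
  refine (hb _).trans ?_
  rw [mul_assoc, ← Real.exp_add, ← Real.exp_add]
  refine mul_le_mul_of_nonneg_left (Real.exp_le_exp.2 ?_) hB
  have := abs_add_three x (a * p.1) (b * p.2)
  rw [abs_mul, abs_mul] at this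
  linarith

lemma spread_spread {h : ℝ → ℝ} (hm : Measurable h) {B : ℝ} (hb : ∀ x, |h x| ≤ B * Real.exp |x|)
    {σ τ : ℝ} (hσ : 0 ≤ σ) (hτ : 0 ≤ τ) (x : ℝ) :
    Integrable (fun g => spread τ h (x + Real.sqrt σ * g)) (gaussianReal 0 1) ∧
      ∫ g, spread τ h (x + Real.sqrt σ * g) ∂(gaussianReal 0 1) = spread (σ + τ) h x := by
  have hi := integrable_envelope hm hb (Real.sqrt σ) (Real.sqrt τ) x
  refine ⟨hi.integral_prod_left, ?_⟩
  unfold spread
  rw [← integral_prod _ hi]
  have := integral_combine (φ := fun z => h (x + z)) (hm.comp (by fun_prop)) (Real.sqrt σ)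
    (Real.sqrt τ)
  simp only [← add_assoc, Real.sq_sqrt hσ, Real.sq_sqrt hτ] at this
  exact this

/-- The difference of two recursions is at most a plain mean of the terminal difference. -/
lemma exp_level_sub_le : ∀ {r : ℕ} {m : Fin r → ℝ}, Exps m → ∀ {ρ : Fin (r + 1) → ℝ},
    Monotone ρ → ∀ {A : ℝ} {ψ ψ' : ℝ → ℝ}, Grow A ψ → Grow A ψ' → (∀ y, ψ y ≤ ψ' y) → ∀ x : ℝ,
    Real.exp (level m ρ ψ' 0 x) - Real.exp (level m ρ ψ 0 x) ≤
      Real.exp ((1 - top m) * level m ρ ψ 0 x) *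
        spread (ρ (Fin.last r) - ρ 0) (fun y => Real.exp (ψ' y) - Real.exp (ψ y)) x
  | 0, m, _, ρ, _, A, ψ, ψ', _, _, _, x => by simp [top, spread, level]
  | r + 1, m, hm, ρ, hρ, A, ψ, ψ', h, h', hle, x => by
    obtain ⟨A₁, hF⟩ := Grow.level (m := Fin.tail m) (fun i => hm.pos _) (Fin.tail ρ) h
    obtain ⟨A₂, hF'⟩ := Grow.level (m := Fin.tail m) (fun i => hm.pos _) (Fin.tail ρ) h'
    set F := level (Fin.tail m) (Fin.tail ρ) ψ 0
    set F' := level (Fin.tail m) (Fin.tail ρ) ψ' 0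
    set D := fun y => Real.exp (ψ' y) - Real.exp (ψ y)
    have hD0 : ∀ y, 0 ≤ D y := fun y => sub_nonneg.2 (Real.exp_le_exp.2 (hle y))
    have hDm : Measurable D := h'.meas.exp.sub h.meas.exp
    have hDb : ∀ y, |D y| ≤ Real.exp A * Real.exp |y| := fun y => by
      rw [abs_of_nonneg (hD0 y), ← Real.exp_add]
      exact (sub_le_self _ (Real.exp_pos _).le).trans (Real.exp_le_exp.2 (h'.le y))
    set σ := ρ 1 - ρ 0
    set τ := ρ (Fin.last (r + 1)) - ρ 1
    have hσ : 0 ≤ σ := sub_nonneg.2 (hρ (Fin.zero_le _))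
    have hτ : 0 ≤ τ := sub_nonneg.2 (hρ (Fin.le_last _))
    have hm0 := hm.pos 0
    have hm1 := hm.lt_one 0
    have htop : m 0 < top (Fin.tail m) := hm.lt_top
    have ih : ∀ y, Real.exp (F' y) - Real.exp (F y) ≤
        Real.exp ((1 - top (Fin.tail m)) * F y) * spread τ D y := fun y => by
      have := exp_level_sub_le hm.tail (ρ := Fin.tail ρ)
        (fun i j hij => hρ (Fin.succ_le_succ_iff.2 hij)) h h' hle y
      simpa [τ, Fin.tail, Fin.succ_zero_eq_one, Fin.succ_last] using this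
    set a := ∫ g, Real.exp (m 0 * F (x + Real.sqrt σ * g)) ∂(gaussianReal 0 1)
    set a' := ∫ g, Real.exp (m 0 * F' (x + Real.sqrt σ * g)) ∂(gaussianReal 0 1)
    have ha : 0 < a := zero_lt_one.trans_le (hF.one_le hm0.le x _)
    have ha' : 0 < a' := zero_lt_one.trans_le (hF'.one_le hm0.le x _)
    set Lv := 1 / m 0 * Real.log a
    set Lv' := 1 / m 0 * Real.log a'
    show Real.exp Lv' - Real.exp Lv ≤ Real.exp ((1 - m 0) * Lv) * spread _ D x
    set c := Lv' - Lv
    have ea : Real.exp (m 0 * Lv) = a := by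
      simp only [Lv]
      rw [← mul_assoc, mul_one_div_cancel hm0.ne', one_mul, Real.exp_log ha]
    have ea' : Real.exp (m 0 * Lv') = a' := by
      simp only [Lv']
      rw [← mul_assoc, mul_one_div_cancel hm0.ne', one_mul, Real.exp_log ha']
    obtain ⟨hsi, hse⟩ := spread_spread hDm hDb hσ hτ x
    -- pointwise tangent inequality
    have hpt : ∀ g, Real.exp (m 0 * F' (x + Real.sqrt σ * g)) * Real.exp (-(m 0 * c)) ≤
        m 0 * Real.exp (-c) * (Real.exp (m 0 * F (x + Real.sqrt σ * g)) +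
          spread τ D (x + Real.sqrt σ * g)) +
          (1 - m 0) * Real.exp (m 0 * F (x + Real.sqrt σ * g)) := by
      intro g
      set y := x + Real.sqrt σ * g
      have h1 := mul_le_mul_of_nonneg_right (exp_mul_le (m 0) (F' y - F y - c) hm0.le hm1.le)
        (Real.exp_pos (m 0 * F y)).le
      have e1 : Real.exp (m 0 * (F' y - F y - c)) * Real.exp (m 0 * F y) =
          Real.exp (m 0 * F' y) * Real.exp (-(m 0 * c)) := by
        rw [← Real.exp_add, ← Real.exp_add]; ring_nf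
      have e2 : Real.exp (F' y - F y - c) * Real.exp (m 0 * F y) =
          Real.exp (-c) * (Real.exp (F' y) * Real.exp ((m 0 - 1) * F y)) := by
        rw [← Real.exp_add, ← Real.exp_add, ← Real.exp_add]; ring_nf
      have hs : 0 ≤ spread τ D y := integral_nonneg fun g => hD0 _
      have h2 : Real.exp (F' y) * Real.exp ((m 0 - 1) * F y) ≤
          Real.exp (m 0 * F y) + spread τ D y := by
        have h3 := mul_le_mul_of_nonneg_right (ih y) (Real.exp_pos ((m 0 - 1) * F y)).le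
        rw [sub_mul, mul_right_comm, ← Real.exp_add, ← Real.exp_add, ← Real.exp_add] at h3
        rw [← Real.exp_add]
        have h4 : Real.exp ((1 - top (Fin.tail m)) * F y + (m 0 - 1) * F y) ≤ 1 :=
          Real.exp_le_one_iff.2 (by nlinarith [hF.nonneg y])
        have h5 := mul_le_mul_of_nonneg_right h4 hs
        have e3 : F y + (m 0 - 1) * F y = m 0 * F y := by ring
        rw [e3] at h3
        linarith
      rw [e1, add_mul, mul_assoc, e2] at h1
      nlinarith [mul_le_mul_of_nonneg_left h2 (mul_nonneg hm0.le (Real.exp_pos (-c)).le)]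
    have hiF := hF.integrable_exp hm0.le x (Real.sqrt σ)
    have hiF' := hF'.integrable_exp hm0.le x (Real.sqrt σ)
    have hr1 : Integrable (fun g => m 0 * Real.exp (-c) *
        (Real.exp (m 0 * F (x + Real.sqrt σ * g)) + spread τ D (x + Real.sqrt σ * g))) (gaussianReal 0 1) :=
      (hiF.add hsi).const_mul _
    have hr2 : Integrable (fun g => (1 - m 0) * Real.exp (m 0 * F (x + Real.sqrt σ * g))) (gaussianReal 0 1) :=
      hiF.const_mul _
    have h1 := integral_mono (hiF'.mul_const _) (hr1.add hr2) hpt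
    simp only [Pi.add_apply] at h1
    rw [integral_mul_const, integral_add hr1 hr2, integral_const_mul, integral_const_mul,
      integral_add hiF hsi, hse] at h1
    have e3 : a' * Real.exp (-(m 0 * c)) = a := by
      rw [← ea', ← ea, ← Real.exp_add]; congr 1; simp only [c]; ring
    rw [e3] at h1
    have h2 : a * Real.exp c ≤ a + spread (σ + τ) D x := by
      have : m 0 * a ≤ m 0 * Real.exp (-c) * (a + spread (σ + τ) D x) := by linarith
      rw [mul_assoc] at this
      have := mul_le_mul_of_nonneg_right (le_of_mul_le_mul_left this hm0) (Real.exp_pos c).le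
      rwa [mul_right_comm, ← Real.exp_add, neg_add_cancel, Real.exp_zero, one_mul] at this
    have e4 : Real.exp Lv = Real.exp ((1 - m 0) * Lv) * a := by
      rw [← ea, ← Real.exp_add]; ring_nf
    have e5 : Real.exp Lv' = Real.exp Lv * Real.exp c := by
      rw [← Real.exp_add]; simp [c]
    have e6 : σ + τ = ρ (Fin.last (r + 1)) - ρ 0 := by simp only [σ, τ]; ring
    rw [← e6, e5, e4]
    nlinarith [mul_le_mul_of_nonneg_left h2 (Real.exp_pos ((1 - m 0) * Lv)).le]

/-- The averaged difference of two recursions. -/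
lemma integral_level_sub_le {r : ℕ} {m : Fin r → ℝ} (hm : Exps m) {ρ : Fin (r + 1) → ℝ}
    (hρ : Monotone ρ) (h0 : 0 ≤ ρ 0) {A : ℝ} {ψ ψ' : ℝ → ℝ} (h : Grow A ψ) (h' : Grow A ψ')
    (hle : ∀ y, ψ y ≤ ψ' y) :
    (∫ g, level m ρ ψ' 0 (Real.sqrt (ρ 0) * g) ∂(gaussianReal 0 1)) -
        ∫ g, level m ρ ψ 0 (Real.sqrt (ρ 0) * g) ∂(gaussianReal 0 1) ≤
      spread (ρ (Fin.last r)) (fun y => Real.exp (ψ' y) - Real.exp (ψ y)) 0 := by
  set D := fun y => Real.exp (ψ' y) - Real.exp (ψ y)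
  have hD0 : ∀ y, 0 ≤ D y := fun y => sub_nonneg.2 (Real.exp_le_exp.2 (hle y))
  have hDb : ∀ y, |D y| ≤ Real.exp A * Real.exp |y| := fun y => by
    rw [abs_of_nonneg (hD0 y), ← Real.exp_add]
    exact (sub_le_self _ (Real.exp_pos _).le).trans (Real.exp_le_exp.2 (h'.le y))
  have hτ : 0 ≤ ρ (Fin.last r) - ρ 0 := sub_nonneg.2 (hρ (Fin.zero_le _))
  have hDm : Measurable D := h'.meas.exp.sub h.meas.exp
  obtain ⟨hsi, hse⟩ := spread_spread hDm hDb h0 hτ 0
  rw [add_sub_cancel] at hse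
  simp only [zero_add] at hsi hse
  rw [← hse]
  obtain ⟨A₁, hF⟩ := Grow.level hm.pos ρ h
  obtain ⟨A₂, hF'⟩ := Grow.level hm.pos ρ h'
  have hint : ∀ {B : ℝ} {F : ℝ → ℝ}, Grow B F →
      Integrable (fun g => F (Real.sqrt (ρ 0) * g)) (gaussianReal 0 1) := fun {B F} hF => by
    refine ((hF.integrable_exp zero_le_one 0 (Real.sqrt (ρ 0))).add (integrable_const 0)).mono'
      (hF.meas.comp (by fun_prop)).aestronglyMeasurable (ae_of_all _ fun g => ?_)
    rw [Real.norm_eq_abs, abs_of_nonneg (hF.nonneg _)]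
    simp only [one_mul, zero_add, Pi.add_apply, add_zero]
    linarith [Real.add_one_le_exp (F (Real.sqrt (ρ 0) * g))]
  rw [← integral_sub (hint hF') (hint hF)]
  refine integral_mono ((hint hF').sub (hint hF)) hsi fun g => ?_
  set y := Real.sqrt (ρ 0) * g
  have h1 := exp_level_sub_le hm hρ h h' hle y
  have hs : 0 ≤ spread (ρ (Fin.last r) - ρ 0) D y := integral_nonneg fun g => hD0 _
  have ht := hm.top_pos
  set L := level m ρ ψ 0 y
  set L' := level m ρ ψ' 0 y
  have hL : 0 ≤ L := hF.nonneg y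
  have h2 := Real.add_one_le_exp (L' - L)
  have h3 : Real.exp (L' - L) - 1 = (Real.exp L' - Real.exp L) * Real.exp (-L) := by
    rw [sub_mul, ← Real.exp_add, ← Real.exp_add, add_neg_cancel, Real.exp_zero, ← sub_eq_add_neg]
  have h4 := mul_le_mul_of_nonneg_right h1 (Real.exp_pos (-L)).le
  rw [mul_right_comm, ← Real.exp_add] at h4
  have h5 : Real.exp ((1 - top m) * L + -L) ≤ 1 := Real.exp_le_one_iff.2 (by nlinarith)
  show L' - L ≤ spread (ρ (Fin.last r) - ρ 0) D y
  linarith [mul_le_mul_of_nonneg_right h5 hs]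

end Vale.Agent.P157.Parisi.Site
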