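import Vale.Agent.P157.Parisi.Site.Trig
import Vale.Agent.P157.Parisi.Site.Levels
import Vale.Agent.P157.Parisi.Site.Gauss
import Vale.Agent.P168.Cascade.MomentLimit
import Vale.Agent.P168.States.IterLimit

/-!
The tree side: moments of a cosine sum of the field along a tree, and the recursion as their
polynomial combination.
-/

noncomputable section

open MeasureTheory ProbabilityTheory Filter Topology Finset
open scoped BigOperators

namespace Vale.Agent.P157.Parisi.Site

open Vale.Agent.P168 (Shape shapeProb shapeMarks treeMoment cascMean cascSum cascLaw cascFilter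
  genNested padded)
open Vale.Agent.P168.Cascade (Exps IsTree tableLaw)

variable {r : ℕ}

/-- A cosine sum averaged over a centred Gaussian shift of variance `δ`. -/
def damp {L : ℕ} (δ : ℝ) (c t : Fin L → ℝ) (x : ℝ) : ℝ :=
  ∑ i, c i * Real.exp (-(δ * t i ^ 2) / 2) * Real.cos (t i * x)

lemma damp_eq {φ : ℝ → ℝ} {L : ℕ} {c t : Fin L → ℝ}
    (h : ∀ y, φ y = ∑ i, c i * Real.cos (t i * y)) {δ : ℝ} (hδ : 0 ≤ δ) (x : ℝ) :
    damp δ c t x = spread δ φ x := by
  have hi : ∀ i, Integrable (fun g => c i * Real.cos (t i * x + t i * Real.sqrt δ * g)) (gaussianReal 0 1) :=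
    fun i => (Integrable.of_bound (by fun_prop : Continuous fun g : ℝ =>
      Real.cos (t i * x + t i * Real.sqrt δ * g)).aestronglyMeasurable 1
      (ae_of_all _ fun g => Real.abs_cos_le_one _)).const_mul _
  have e : (fun g => φ (x + Real.sqrt δ * g)) =
      fun g => ∑ i, c i * Real.cos (t i * x + t i * Real.sqrt δ * g) := by
    funext g
    simp only [h, mul_add, ← mul_assoc]
  rw [spread, e, integral_finsetSum _ fun i _ => hi i, damp]
  refine Finset.sum_congr rfl fun i _ => ?_
  rw [integral_const_mul, integral_cos_gauss, mul_pow, Real.sq_sqrt hδ]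
  ring_nf

lemma spread_damp {φ : ℝ → ℝ} {L : ℕ} {c t : Fin L → ℝ}
    (h : ∀ y, φ y = ∑ i, c i * Real.cos (t i * y)) (hφm : Measurable φ) {M : ℝ}
    (hφ : ∀ y, |φ y| ≤ M) {δ σ : ℝ} (hδ : 0 ≤ δ) (hσ : 0 ≤ σ) :
    spread σ (damp δ c t) 0 = spread (σ + δ) φ 0 := by
  have e : damp δ c t = spread δ φ := funext (damp_eq h hδ)
  rw [e]
  exact (spread_spread hφm (fun x => (hφ x).trans (le_mul_of_one_le_right
    ((abs_nonneg _).trans (hφ x)) (Real.one_le_exp (abs_nonneg x)))) hσ hδ 0).2

lemma spread_mem {φ : ℝ → ℝ} (hm : Measurable φ) {a b : ℝ} (hb : ∀ y, a ≤ φ y ∧ φ y ≤ b) (δ x : ℝ) :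
    a ≤ spread δ φ x ∧ spread δ φ x ≤ b := by
  have hi : Integrable (fun g => φ (x + Real.sqrt δ * g)) (gaussianReal 0 1) :=
    Integrable.of_bound (hm.comp (by fun_prop)).aestronglyMeasurable (|a| + |b|)
      (ae_of_all _ fun g => by
        rw [Real.norm_eq_abs, abs_le]
        constructor <;> linarith [(hb (x + Real.sqrt δ * g)).1, (hb (x + Real.sqrt δ * g)).2,
          le_abs_self b, neg_abs_le a, abs_nonneg a, abs_nonneg b])
  constructor
  · simpa [spread] using integral_mono (integrable_const a) hi fun g => (hb _).1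
  · simpa [spread] using integral_mono hi (integrable_const b) fun g => (hb _).2

lemma continuous_damp {L : ℕ} (δ : ℝ) (c t : Fin L → ℝ) : Continuous (damp δ c t) := by
  unfold damp; fun_prop

lemma continuous_pathField (ρ : Fin (r + 1) → ℝ) :
    Continuous fun p : ℝ × (Fin r → ℝ) => pathField ρ p.1 p.2 := by
  unfold pathField; fun_prop

/-- The replica moments of a function of the field in a cascade. -/
def fieldMoment (m : Fin r → ℝ) (ρ : Fin (r + 1) → ℝ) (φ : ℝ → ℝ) (k : ℕ) : ℝ :=
  ∫ g₀, treeMoment (gaussianReal 0 1) m (fun _ : Fin k => fun ω => φ (pathField ρ g₀ ω)) ∂(gaussianReal 0 1)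

lemma measurable_fieldFun {φ : ℝ → ℝ} (hφ : Continuous φ) (ρ : Fin (r + 1) → ℝ) {k : ℕ}
    (v : Shape r k) : Measurable fun p : ℝ × (Fin r → Fin k → ℝ) =>
      ∏ l, φ (pathField ρ p.1 (shapeMarks v p.2 l)) :=
  Finset.measurable_prod _ fun l _ => (hφ.comp (continuous_pathField ρ)).measurable.comp
    (measurable_fst.prodMk ((Vale.Agent.P168.Cascade.measurable_shapeMarks v l).comp measurable_snd))

lemma abs_prod_le_pow {φ : ℝ → ℝ} {M : ℝ} (hM : ∀ y, |φ y| ≤ M) {k : ℕ} (y : Fin k → ℝ) :
    |∏ l, φ (y l)| ≤ M ^ k := by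
  rw [Finset.abs_prod]
  exact (Finset.prod_le_prod (fun l _ => abs_nonneg _) fun l _ => hM _).trans_eq (by simp)

lemma fieldMoment_eq (m : Fin r → ℝ) {ρ : Fin (r + 1) → ℝ} (hρ : Monotone ρ) (h0 : 0 ≤ ρ 0)
    (δ : ℝ) {L : ℕ} (c t : Fin L → ℝ) {M : ℝ} (hM : ∀ y, |damp δ c t y| ≤ M) (k : ℕ) :
    fieldMoment m ρ (damp δ c t) k = ∑ v : Shape r k, shapeProb m k v *
      ∑ i : Fin k → Fin L, (∏ l, c (i l)) / 2 ^ k * ∑ s : Fin k → Bool,
        Real.exp (-((δ * ∑ l, (sgn (s l) * t (i l)) ^ 2) +
          treeVar ρ v fun l => sgn (s l) * t (i l)) / 2) := by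
  have hcont := continuous_damp δ c t
  have hint : ∀ v : Shape r k, Integrable (fun g₀ => ∫ ω : Fin r → Fin k → ℝ,
      ∏ l, damp δ c t (pathField ρ g₀ (shapeMarks v ω l)) ∂tableLaw (gaussianReal 0 1) r k) (gaussianReal 0 1) := fun v =>
    Integrable.of_bound
      ((measurable_fieldFun hcont ρ v).stronglyMeasurable.integral_prod_right'
        (ν := tableLaw (gaussianReal 0 1) r k)).aestronglyMeasurable (M ^ k)
      (ae_of_all _ fun g => (norm_integral_le_of_norm_le_const (C := M ^ k)
        (ae_of_all _ fun ω => abs_prod_le_pow hM _)).trans (by simp))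
  simp only [fieldMoment, treeMoment]
  rw [integral_finsetSum _ fun v _ => (hint v).const_mul _]
  refine Finset.sum_congr rfl fun v _ => ?_
  rw [integral_const_mul]
  rcases eq_or_ne (shapeProb m k v) 0 with h | h
  · simp [h]
  have hv : IsTree v := Vale.Agent.P168.Cascade.isTree_of_prob h
  congr 1
  set d : Fin L → ℝ := fun j => c j * Real.exp (-(δ * t j ^ 2) / 2)
  have hd : ∀ y, damp δ c t y = ∑ j, d j * Real.cos (t j * y) := fun y => rfl
  set W : (Fin k → Fin L) → ℝ := fun i => (∏ l, d (i l)) / 2 ^ k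
  have hcos : ∀ (i : Fin k → Fin L) (s : Fin k → Bool) (g₀ : ℝ), Integrable
      (fun ω : Fin r → Fin k → ℝ =>
        Real.cos (∑ l, sgn (s l) * t (i l) * pathField ρ g₀ (shapeMarks v ω l)))
      (tableLaw (gaussianReal 0 1) r k) := fun i s g₀ => by
    refine Integrable.of_bound (Real.continuous_cos.measurable.comp (Finset.measurable_sum _
      fun l _ => ((continuous_pathField ρ).measurable.comp (measurable_const.prodMk
        (Vale.Agent.P168.Cascade.measurable_shapeMarks v l))).const_mul _)).aestronglyMeasurable 1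
      (ae_of_all _ fun ω => Real.abs_cos_le_one _)
  have hinner : ∀ g₀, ∫ ω : Fin r → Fin k → ℝ,
      ∏ l, damp δ c t (pathField ρ g₀ (shapeMarks v ω l)) ∂tableLaw (gaussianReal 0 1) r k =
      ∑ i, W i * ∑ s : Fin k → Bool, ∫ ω : Fin r → Fin k → ℝ,
        Real.cos (∑ l, sgn (s l) * t (i l) * pathField ρ g₀ (shapeMarks v ω l))
          ∂tableLaw (gaussianReal 0 1) r k := fun g₀ => by
    simp only [prod_trig_eq hd]
    rw [integral_finsetSum _ fun i _ =>
      ((integrable_finsetSum _ fun s _ => hcos i s g₀).const_mul _)]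
    refine Finset.sum_congr rfl fun i _ => ?_
    rw [integral_const_mul, integral_finsetSum _ fun s _ => hcos i s g₀]
  simp only [hinner]
  have hout : ∀ (i : Fin k → Fin L) (s : Fin k → Bool), Integrable (fun g₀ =>
      ∫ ω : Fin r → Fin k → ℝ,
        Real.cos (∑ l, sgn (s l) * t (i l) * pathField ρ g₀ (shapeMarks v ω l))
          ∂tableLaw (gaussianReal 0 1) r k) (gaussianReal 0 1) := fun i s => by
    have hm : Measurable fun p : ℝ × (Fin r → Fin k → ℝ) =>
        Real.cos (∑ l, sgn (s l) * t (i l) * pathField ρ p.1 (shapeMarks v p.2 l)) :=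
      Real.continuous_cos.measurable.comp (Finset.measurable_sum _ fun l _ =>
        ((continuous_pathField ρ).measurable.comp (measurable_fst.prodMk
          ((Vale.Agent.P168.Cascade.measurable_shapeMarks v l).comp measurable_snd))).const_mul _)
    exact Integrable.of_bound (hm.stronglyMeasurable.integral_prod_right'
      (ν := tableLaw (gaussianReal 0 1) r k)).aestronglyMeasurable 1
      (ae_of_all _ fun g => (norm_integral_le_of_norm_le_const (C := 1)
        (ae_of_all _ fun ω => Real.abs_cos_le_one _)).trans (by simp))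
  rw [integral_finsetSum _ fun i _ => (integrable_finsetSum _ fun s _ => hout i s).const_mul _]
  refine Finset.sum_congr rfl fun i _ => ?_
  rw [integral_const_mul, integral_finsetSum _ fun s _ => hout i s, Finset.mul_sum, Finset.mul_sum]
  refine Finset.sum_congr rfl fun s _ => ?_
  rw [integral_cos_field hv hρ h0 fun l => sgn (s l) * t (i l)]
  simp only [W, d, Finset.prod_mul_distrib, ← Real.exp_sum, mul_pow, sgn_sq, one_mul]
  rw [neg_add, add_div, Real.exp_add, Finset.mul_sum, ← Finset.sum_div, Finset.sum_neg_distrib]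
  ring

/-- A polynomial close to the logarithm turns the moments into the recursion. -/
lemma level_approx {m : Fin r → ℝ} (hm : Exps m) {ρ : Fin (r + 1) → ℝ}
    {φ : ℝ → ℝ} (hφc : Continuous φ) {M : ℝ} (hM : 1 ≤ M) (hφ : ∀ y, 1 ≤ φ y ∧ φ y ≤ M)
    {P : Polynomial ℝ} {ε : ℝ} (hP : ∀ x ∈ Set.Icc (1 : ℝ) M, |P.eval x - Real.log x| ≤ ε) :
    |∑ k ∈ Finset.range (P.natDegree + 1), P.coeff k * fieldMoment m ρ φ k -
      ∫ g₀, level m ρ (fun x => Real.log (φ x)) 0 (Real.sqrt (ρ 0) * g₀) ∂(gaussianReal 0 1)| ≤ ε := by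
  have hg : Grow (Real.log M) fun x => Real.log (φ x) :=
    ⟨hφc.measurable.log, fun x => Real.log_nonneg (hφ x).1,
      fun x => (Real.log_le_log (zero_lt_one.trans_le (hφ x).1) (hφ x).2).trans
        (le_add_of_nonneg_right (abs_nonneg x))⟩
  obtain ⟨A', hL⟩ := Grow.level hm.pos ρ hg
  -- one value of the root variable
  set Y : ℝ → (Fin r → ℝ) → ℝ := fun g₀ ω => φ (pathField ρ g₀ ω)
  have hYm : ∀ g₀, Measurable (Y g₀) := fun g₀ =>
    hφc.measurable.comp ((continuous_pathField ρ).measurable.comp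
      (measurable_const.prodMk measurable_id))
  have hgen : ∀ g₀, genNested (gaussianReal 0 1) m (Y g₀) =
      Real.exp (level m ρ (fun x => Real.log (φ x)) 0 (Real.sqrt (ρ 0) * g₀)) := fun g₀ => by
    rw [← genNested_exp hm.pos ρ hg]
    congr 1
    funext ω
    rw [Real.exp_log (zero_lt_one.trans_le (hφ _).1)]
    rfl
  have hone : ∀ g₀, |∑ k ∈ Finset.range (P.natDegree + 1),
      P.coeff k * treeMoment (gaussianReal 0 1) m (fun _ : Fin k => Y g₀) -
        level m ρ (fun x => Real.log (φ x)) 0 (Real.sqrt (ρ 0) * g₀)| ≤ ε := by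
    intro g₀
    have hM0 : (0 : ℝ) < M := by linarith
    have hlog := Vale.Agent.P168.Cascade.cascadeLog ℝ (gaussianReal 0 1) r m hm.pos hm.lt_one hm.mono (Y g₀) M hM0
      (hYm g₀) (fun ω => ⟨(inv_le_one_of_one_le₀ hM).trans (hφ _).1, (hφ _).2⟩)
    rw [hgen, Real.log_exp] at hlog
    have hmom : ∀ k, Tendsto (fun n => ∫ t, cascMean m n (Y g₀) t ^ k ∂cascLaw (gaussianReal 0 1) r n)
        (cascFilter r) (𝓝 (treeMoment (gaussianReal 0 1) m fun _ : Fin k => Y g₀)) := by
      intro k
      have h := (Vale.Agent.P168.Cascade.cascadeMoment ℝ (gaussianReal 0 1) r k m hm.pos hm.lt_one hm.mono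
        (fun _ ω => Y g₀ ω / M) (fun _ => (hYm g₀).div_const M) fun _ ω => by
          rw [abs_div, abs_of_pos hM0, div_le_one hM0,
            abs_of_nonneg (zero_le_one.trans (hφ _).1)]
          exact (hφ _).2).const_mul (M ^ k)
      have e : M ^ k * treeMoment (gaussianReal 0 1) m (fun _ : Fin k => fun ω => Y g₀ ω / M) =
          treeMoment (gaussianReal 0 1) m fun _ : Fin k => Y g₀ := by
        simp only [treeMoment, Finset.mul_sum, div_eq_inv_mul, Finset.prod_mul_distrib,
          integral_const_mul, Finset.prod_const, Finset.card_univ, Fintype.card_fin, inv_pow]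
        refine Finset.sum_congr rfl fun v _ => ?_
        field_simp
      rw [e] at h
      refine h.congr fun n => ?_
      rw [← integral_const_mul]
      refine integral_congr_ae (ae_of_all _ fun t => ?_)
      simp only [Finset.prod_const, Finset.card_univ, Fintype.card_fin, ← mul_pow, cascMean,
        div_eq_inv_mul _ M, Vale.Agent.P168.Cascade.cascSum_smul]
      congr 1
      field_simp
    have hsum := tendsto_finsetSum (Finset.range (P.natDegree + 1)) fun k _ =>
      (hmom k).const_mul (P.coeff k)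
    refine le_of_tendsto ((hsum.sub hlog).abs) ?_
    filter_upwards [Vale.Agent.P168.Cascade.eventually_pos r] with n hn
    have hmem : ∀ᵐ t ∂cascLaw (gaussianReal 0 1) r n, cascMean m n (Y g₀) t ∈ Set.Icc (1 : ℝ) M :=
      (Vale.Agent.P168.Cascade.ae_good (gaussianReal 0 1) r n).mono fun t ht => by
        have h1 := Vale.Agent.P168.Cascade.cascSum_one_pos m hn ht
        have lo := Vale.Agent.P168.Cascade.cascSum_mono (m := m) (Y := fun _ => (1 : ℝ))
          (Y' := Y g₀) (fun ω => (hφ _).1) ht
        have hi := Vale.Agent.P168.Cascade.cascSum_mono (m := m) (Y := Y g₀)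
          (Y' := fun _ => M * 1) (fun ω => by simpa using (hφ _).2) ht
        rw [Vale.Agent.P168.Cascade.cascSum_smul m n (fun _ => 1)] at hi
        exact ⟨(one_le_div h1).2 lo, (div_le_iff₀ h1).2 hi⟩
    have hmm : Measurable fun t => cascMean m n (Y g₀) t :=
      (Vale.Agent.P168.Cascade.measurable_cascSum m n (hYm g₀)).div
        (Vale.Agent.P168.Cascade.measurable_cascSum m n measurable_const)
    have hip : ∀ k, Integrable (fun t => P.coeff k * cascMean m n (Y g₀) t ^ k) (cascLaw (gaussianReal 0 1) r n) :=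
      fun k => (Integrable.of_bound (hmm.pow_const k).aestronglyMeasurable (M ^ k)
        (hmem.mono fun t ht => by
          rw [Real.norm_eq_abs, abs_pow]
          exact pow_le_pow_left₀ (abs_nonneg _)
            (by rw [abs_of_nonneg (zero_le_one.trans ht.1)]; exact ht.2) k)).const_mul _
    have hil : Integrable (fun t => Real.log (cascMean m n (Y g₀) t)) (cascLaw (gaussianReal 0 1) r n) :=
      Integrable.of_bound hmm.log.aestronglyMeasurable (Real.log M) (hmem.mono fun t ht => by
        rw [Real.norm_eq_abs, abs_of_nonneg (Real.log_nonneg ht.1)]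
        exact Real.log_le_log (zero_lt_one.trans_le ht.1) ht.2)
    simp only [← integral_const_mul]
    rw [← integral_finsetSum _ fun k _ => hip k, ← integral_sub (integrable_finsetSum _ fun k _ => hip k) hil]
    rw [← Real.norm_eq_abs]
    refine (norm_integral_le_of_norm_le_const (C := ε) (hmem.mono fun t ht => ?_)).trans
      (le_of_eq (by simp))
    rw [Real.norm_eq_abs, ← Polynomial.eval_eq_sum_range]
    exact hP _ ht
  -- averaging
  have hMk : ∀ k, Integrable (fun g₀ => treeMoment (gaussianReal 0 1) m (fun _ : Fin k => Y g₀)) (gaussianReal 0 1) := fun k => by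
    refine integrable_finsetSum _ fun v _ => Integrable.const_mul ?_ _
    exact Integrable.of_bound
      ((measurable_fieldFun hφc ρ v).stronglyMeasurable.integral_prod_right'
        (ν := tableLaw (gaussianReal 0 1) r k)).aestronglyMeasurable (M ^ k)
      (ae_of_all _ fun g => (norm_integral_le_of_norm_le_const (C := M ^ k)
        (ae_of_all _ fun ω => abs_prod_le_pow (fun y => by
          rw [abs_of_nonneg (zero_le_one.trans (hφ y).1)]; exact (hφ y).2) _)).trans (by simp))
  have hS : Integrable (fun g₀ => ∑ k ∈ Finset.range (P.natDegree + 1),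
      P.coeff k * treeMoment (gaussianReal 0 1) m (fun _ : Fin k => Y g₀)) (gaussianReal 0 1) :=
    integrable_finsetSum _ fun k _ => (hMk k).const_mul _
  have hLi : Integrable (fun g₀ =>
      level m ρ (fun x => Real.log (φ x)) 0 (Real.sqrt (ρ 0) * g₀)) (gaussianReal 0 1) := by
    refine (hS.norm.add (integrable_const ε)).mono' (hL.meas.comp (by fun_prop)).aestronglyMeasurable
      (ae_of_all _ fun g => ?_)
    simp only [Real.norm_eq_abs, Pi.add_apply]
    have h := abs_le.1 (hone g)
    refine abs_le.2 ⟨?_, ?_⟩ <;> linarith [le_abs_self (∑ k ∈ Finset.range (P.natDegree + 1),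
      P.coeff k * treeMoment (gaussianReal 0 1) m (fun _ : Fin k => Y g)), hL.nonneg (Real.sqrt (ρ 0) * g)]
  simp only [fieldMoment, ← integral_const_mul]
  rw [← integral_finsetSum _ fun k _ => (hMk k).const_mul _, ← integral_sub hS hLi]
  rw [← Real.norm_eq_abs]
  refine (norm_integral_le_of_norm_le_const (C := ε) (ae_of_all _ fun g => ?_)).trans
    (le_of_eq (by simp))
  rw [Real.norm_eq_abs]
  exact hone g

/-! ### The law of the tree of one and two replicas -/

lemma padded_mono {m : Fin r → ℝ} (hm : Exps m) (p : ℕ) (hp : p ≤ r) :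
    padded m p ≤ padded m (p + 1) := by
  rcases Nat.eq_zero_or_pos p with rfl | h0
  · rw [Vale.Agent.P168.Cascade.padded_zero]
    unfold padded
    rw [if_neg (by omega)]
    split_ifs with h
    · exact (hm.pos _).le
    · exact zero_le_one
  · obtain ⟨i, rfl⟩ : ∃ i, p = i + 1 := ⟨p - 1, by omega⟩
    rw [Vale.Agent.P168.Cascade.padded_succ m ⟨i, by omega⟩]
    unfold padded
    rw [if_neg (by omega)]
    split_ifs with h
    · exact (hm.mono (Fin.mk_lt_mk.2 (by omega))).le
    · exact (hm.lt_one _).le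

lemma shapeProb_nonneg {m : Fin r → ℝ} (hm : Exps m) :
    ∀ {k : ℕ} (v : Shape r k), 0 ≤ shapeProb m k v
  | 0, _ => zero_le_one
  | k + 1, v => by
    show 0 ≤ shapeProb m k (Vale.Agent.P168.shapeInit v) * Vale.Agent.P168.extProb m v
    rcases eq_or_ne (shapeProb m k (Vale.Agent.P168.shapeInit v)) 0 with h | h
    · simp [h]
    refine mul_nonneg (shapeProb_nonneg hm _) ?_
    rcases Nat.eq_zero_or_pos k with rfl | hk
    · unfold Vale.Agent.P168.extProb; split_ifs <;> simp
    rcases eq_or_ne (Vale.Agent.P168.extProb m v) 0 with he | he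
    · rw [he]
    have hv := Vale.Agent.P168.Cascade.isTree_of_prob h
    obtain ⟨q, b, -, e⟩ := Vale.Agent.P168.Cascade.exists_attach hk.ne' hv he
    rw [e, hv.extProb_attach]
    refine div_nonneg ?_ (Nat.cast_nonneg _)
    have h1 : 1 ≤ Vale.Agent.P168.Cascade.kids (Vale.Agent.P168.shapeInit v) q.val b :=
      Finset.card_pos.2 ((Finset.image_nonempty).2 ⟨b, hv.self_mem _ b⟩)
    have h2 := padded_mono hm q.val (Nat.le_of_lt_succ q.isLt)
    have h3 : (0 : ℝ) ≤ padded m (q.val + 1) := by
      unfold padded; rw [if_neg (by omega)]; split_ifs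
      · exact (hm.pos _).le
      · exact zero_le_one
    have h1' : (1 : ℝ) ≤ (Vale.Agent.P168.Cascade.kids (Vale.Agent.P168.shapeInit v) q.val b : ℝ) := by
      exact_mod_cast h1
    unfold Vale.Agent.P168.Cascade.coef
    nlinarith

lemma sum_shape_one (m : Fin r → ℝ) (F : Shape r 1 → ℝ) :
    ∑ v : Shape r 1, shapeProb m 1 v * F v = F fun _ _ => Fin.last r := by
  rw [Finset.sum_eq_single (fun _ _ => Fin.last r)]
  · simp [shapeProb, Vale.Agent.P168.extProb]
  · intro v _ hne
    have : v (Fin.last 0) (Fin.last 0) ≠ Fin.last r := fun h => hne (by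
      funext a b
      rw [Subsingleton.elim a (Fin.last 0), Subsingleton.elim b (Fin.last 0), h])
    have e : Vale.Agent.P168.extProb m v = 0 := by
      unfold Vale.Agent.P168.extProb
      rw [if_neg this]
    simp [shapeProb, e]
  · simp

lemma weight_eq (m : Fin r → ℝ) (q : Fin (r + 1)) :
    weight m q = padded m (q.val + 1) - padded m q.val := by
  have h1 : (Fin.snoc m 1 : Fin (r + 1) → ℝ) q = padded m (q.val + 1) := by
    induction q using Fin.lastCases with
    | last => simp [Vale.Agent.P168.Cascade.padded_top]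
    | cast i => simp [Vale.Agent.P168.Cascade.padded_succ]
  have h2 : (Fin.cons 0 m : Fin (r + 1) → ℝ) q = padded m q.val := by
    induction q using Fin.cases with
    | zero => simp [Vale.Agent.P168.Cascade.padded_zero]
    | succ i => simp [Vale.Agent.P168.Cascade.padded_succ]
  rw [weight, h1, h2]

lemma sum_shape_two (m : Fin r → ℝ) (F : Fin (r + 1) → ℝ) :
    ∑ v : Shape r 2, shapeProb m 2 v * F (v 0 1) = ∑ p, weight m p * F p := by
  have hv : IsTree (fun _ _ => Fin.last r : Shape r 1) :=
    ⟨fun _ => rfl, fun _ _ => rfl, fun _ _ _ => min_le_left _ _⟩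
  rw [← Finset.sum_fiberwise (Finset.univ) Vale.Agent.P168.shapeInit]
  have h : ∀ u : Shape r 1, ∑ v ∈ univ.filter (fun v => Vale.Agent.P168.shapeInit v = u),
      shapeProb m 2 v * F (v 0 1) = shapeProb m 1 u *
        ∑ v ∈ univ.filter (fun v => Vale.Agent.P168.shapeInit v = u),
          Vale.Agent.P168.extProb m v * F (v 0 1) := fun u => by
    rw [Finset.mul_sum]
    refine Finset.sum_congr rfl fun v hv => ?_
    show shapeProb m 1 (Vale.Agent.P168.shapeInit v) * Vale.Agent.P168.extProb m v * F (v 0 1) = _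
    rw [(Finset.mem_filter.1 hv).2, mul_assoc]
  rw [Finset.sum_congr rfl fun u _ => h u, sum_shape_one,
    hv.sum_extend one_ne_zero m fun v => F (v 0 1)]
  refine Finset.sum_congr rfl fun q _ => ?_
  have hreps : Vale.Agent.P168.Cascade.reps (fun _ _ => Fin.last r : Shape r 1) q.val = univ :=
    Finset.filter_true_of_mem fun a _ => Subsingleton.elim _ _
  rw [hreps, Fin.sum_univ_one]
  have hk : Vale.Agent.P168.Cascade.kids (fun _ _ => Fin.last r : Shape r 1) q.val 0 = 1 :=
    le_antisymm (Finset.card_image_le.trans (Finset.card_le_univ _ |>.trans (by simp)))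
      (Finset.card_pos.2 ((Finset.image_nonempty).2 ⟨0, hv.self_mem _ 0⟩))
  have e0 : Vale.Agent.P168.Cascade.attach (fun _ _ => Fin.last r : Shape r 1) q 0 0 1 = q := by
    show Vale.Agent.P168.Cascade.attach (fun _ _ => Fin.last r : Shape r 1) q 0
      (Fin.castSucc 0) (Fin.last 1) = q
    rw [Vale.Agent.P168.Cascade.attach_new']
    exact min_eq_left (Fin.le_last _)
  rw [e0, Vale.Agent.P168.Cascade.coef, hk, Nat.cast_one, one_mul, div_one]
  rw [weight_eq]

end Vale.Agent.P157.Parisi.Site
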