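import Vale.Agent.P157.Parisi.Site.LowerBound

/-!
Module H: the cavity value in asymptotic cascades.
-/

noncomputable section

open MeasureTheory ProbabilityTheory Filter Topology Finset
open scoped BigOperators NNReal

namespace Vale.Agent.P157.Parisi.Site

open Vale.Agent.P168.Cascade (Exps)

lemma cosh_le_exp_abs (x : ℝ) : Real.cosh x ≤ Real.exp |x| := by
  rw [← Real.cosh_abs, ← Real.cosh_add_sinh]
  exact le_add_of_nonneg_right (Real.sinh_nonneg_iff.2 (abs_nonneg x))

lemma grow_logCosh : Grow 0 fun x => Real.log (Real.cosh x) where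
  meas := Real.continuous_cosh.measurable.log
  nonneg x := Real.log_nonneg (Real.one_le_cosh x)
  le x := by
    rw [zero_add, Real.log_le_iff_le_exp (Real.cosh_pos x)]
    exact cosh_le_exp_abs x

lemma integrable_cosh_mul (c x : ℝ) : Integrable (fun g => Real.cosh (x + c * g)) (gaussianReal 0 1) := by
  refine ((integrable_exp_abs |c|).const_mul (Real.exp |x|)).mono'
    (by fun_prop) (ae_of_all _ fun g => ?_)
  rw [Real.norm_eq_abs, abs_of_pos (Real.cosh_pos _), ← Real.exp_add]
  refine (cosh_le_exp_abs _).trans (Real.exp_le_exp.2 ?_)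
  refine (abs_add_le _ _).trans ?_
  rw [abs_mul]

lemma spread_cosh {δ : ℝ} (hδ : 0 ≤ δ) (x : ℝ) :
    spread δ Real.cosh x = Real.exp (δ / 2) * Real.cosh x := by
  have hm : ∀ c : ℝ, ∫ g, Real.exp (c * g) ∂(gaussianReal 0 1) = Real.exp (c ^ 2 / 2) := fun c => by
    have h := congrFun (mgf_id_gaussianReal (μ := (0 : ℝ)) (v := (1 : ℝ≥0))) c
    simpa [mgf] using h
  have e : ∀ g, Real.cosh (x + Real.sqrt δ * g) = Real.exp x / 2 * Real.exp (Real.sqrt δ * g) +
      Real.exp (-x) / 2 * Real.exp (-Real.sqrt δ * g) := fun g => by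
    rw [Real.cosh_eq, Real.exp_add, neg_add, Real.exp_add, neg_mul]
    ring
  simp only [spread, e]
  rw [integral_add ((integrable_exp_mul_gaussianReal _).const_mul _)
    ((integrable_exp_mul_gaussianReal _).const_mul _), integral_const_mul, integral_const_mul, hm,
    hm, neg_sq, Real.sq_sqrt hδ, Real.cosh_eq]
  ring

/-- The gap of the truncation at field variance at most `S`. -/
def gapMean (S : ℝ) (K : ℕ) : ℝ := ∫ g, gapBound K (Real.sqrt S * |g|) ∂(gaussianReal 0 1)

lemma integrable_gap (S : ℝ) (K : ℕ) :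
    Integrable (fun g => gapBound K (Real.sqrt S * |g|)) (gaussianReal 0 1) := by
  refine (integrable_exp_abs (Real.sqrt S)).mono'
    ((measurable_gapBound K).comp (by fun_prop)).aestronglyMeasurable (ae_of_all _ fun g => ?_)
  rw [Real.norm_eq_abs, abs_of_nonneg (gapBound_nonneg (by positivity))]
  refine (gapBound_le_cosh _ _).trans ((cosh_le_exp_abs _).trans ?_)
  rw [abs_of_nonneg (by positivity : (0 : ℝ) ≤ Real.sqrt S * |g|)]

lemma tendsto_gapMean (S : ℝ) : Tendsto (gapMean S) atTop (𝓝 0) := by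
  have h := tendsto_integral_of_dominated_convergence (μ := (gaussianReal 0 1))
    (F := fun K g => gapBound K (Real.sqrt S * |g|)) (f := fun _ => (0 : ℝ))
    (fun g => Real.exp (Real.sqrt S * |g|))
    (fun K => (integrable_gap S K).aestronglyMeasurable) (integrable_exp_abs _)
    (fun K => ae_of_all _ fun g => by
      rw [Real.norm_eq_abs, abs_of_nonneg (gapBound_nonneg (by positivity))]
      refine (gapBound_le_cosh _ _).trans ((cosh_le_exp_abs _).trans ?_)
      rw [abs_of_nonneg (by positivity : (0 : ℝ) ≤ Real.sqrt S * |g|)])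
    (ae_of_all _ fun g => tendsto_gapBound (by positivity))
  simp only [integral_zero] at h
  exact h

/-- The truncated recursion is close to the recursion of `log cosh`. -/
lemma level_cut_ge {r : ℕ} {m : Fin r → ℝ} (hm : Exps m) {ρ : Fin (r + 1) → ℝ} (hρ : Monotone ρ)
    (h0 : 0 ≤ ρ 0) {δ S : ℝ} (hδ : 0 ≤ δ) (hS : ρ (Fin.last r) + δ ≤ S) {K : ℕ} (hK : 0 < K)
    {D : ℕ} {c t : Fin D → ℝ} (hct : ∀ y, cut K y = ∑ i, c i * Real.cos (t i * y)) :
    δ / 2 + siteValue m ρ + ρ (Fin.last r) / 2 - gapMean S K ≤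
      ∫ g, level m ρ (fun x => Real.log (damp δ c t x)) 0 (Real.sqrt (ρ 0) * g) ∂(gaussianReal 0 1) := by
  have hcb : ∀ y, 1 ≤ cut K y ∧ cut K y ≤ Real.cosh K := fun y => ⟨one_le_cut hK y, cut_le K y⟩
  have hmem : ∀ x, 1 ≤ damp δ c t x ∧ damp δ c t x ≤ Real.cosh K := fun x => by
    rw [damp_eq hct hδ]; exact spread_mem (continuous_cut K).measurable hcb δ x
  have hle : ∀ x, damp δ c t x ≤ Real.exp (δ / 2) * Real.cosh x := fun x => by
    rw [damp_eq hct hδ, ← spread_cosh hδ]
    exact integral_mono (integrable_of_abs_le ((continuous_cut K).measurable.comp (by fun_prop))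
      (K := Real.cosh K) fun g => by
        rw [abs_of_nonneg (zero_le_one.trans (hcb _).1)]; exact (hcb _).2)
      (integrable_cosh_mul _ _) fun g => cut_le_cosh K _
  have hg : Grow (δ / 2) fun x => Real.log (damp δ c t x) := by
    refine ⟨(continuous_damp δ c t).measurable.log, fun x => Real.log_nonneg (hmem x).1, fun x => ?_⟩
    rw [Real.log_le_iff_le_exp (zero_lt_one.trans_le (hmem x).1), Real.exp_add]
    exact (hle x).trans (mul_le_mul_of_nonneg_left (cosh_le_exp_abs x) (Real.exp_pos _).le)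
  have hg' : Grow (δ / 2) fun x => δ / 2 + Real.log (Real.cosh x) :=
    ⟨grow_logCosh.meas.const_add _, fun x => by have := grow_logCosh.nonneg x; linarith,
      fun x => by have := grow_logCosh.le x; linarith⟩
  have hlog : ∀ x, Real.log (damp δ c t x) ≤ δ / 2 + Real.log (Real.cosh x) := fun x => by
    refine (Real.log_le_log (zero_lt_one.trans_le (hmem x).1) (hle x)).trans_eq ?_
    rw [Real.log_mul (Real.exp_pos _).ne' (Real.cosh_pos x).ne', Real.log_exp]
  have key := integral_level_sub_le hm hρ h0 hg hg' hlog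
  obtain ⟨A', hL⟩ := Grow.level hm.pos ρ grow_logCosh
  have hLi : Integrable (fun g =>
      level m ρ (fun x => Real.log (Real.cosh x)) 0 (Real.sqrt (ρ 0) * g)) (gaussianReal 0 1) := by
    refine ((hL.integrable_exp zero_le_one 0 (Real.sqrt (ρ 0)))).mono'
      (hL.meas.comp (by fun_prop)).aestronglyMeasurable (ae_of_all _ fun g => ?_)
    rw [Real.norm_eq_abs, abs_of_nonneg (hL.nonneg _), one_mul, zero_add]
    linarith [Real.add_one_le_exp (level m ρ (fun x => Real.log (Real.cosh x)) 0
      (Real.sqrt (ρ 0) * g))]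
  have e1 : ∫ g, level m ρ (fun x => δ / 2 + Real.log (Real.cosh x)) 0 (Real.sqrt (ρ 0) * g) ∂(gaussianReal 0 1) =
      δ / 2 + siteValue m ρ + ρ (Fin.last r) / 2 := by
    simp only [level_add_const hm.pos ρ grow_logCosh]
    rw [integral_add (integrable_const _) hLi, integral_const, probReal_univ, one_smul, siteValue]
    ring
  have hρr : 0 ≤ ρ (Fin.last r) := h0.trans (hρ (Fin.zero_le _))
  have e2 : spread (ρ (Fin.last r)) (fun x => Real.exp (δ / 2 + Real.log (Real.cosh x)) -
      Real.exp (Real.log (damp δ c t x))) 0 =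
      ∫ g, (Real.cosh (Real.sqrt (ρ (Fin.last r) + δ) * g) -
        cut K (Real.sqrt (ρ (Fin.last r) + δ) * g)) ∂(gaussianReal 0 1) := by
    have hc1 : Integrable (fun g => Real.exp (δ / 2) * Real.cosh (0 + Real.sqrt (ρ (Fin.last r)) * g))
        (gaussianReal 0 1) := (integrable_cosh_mul _ _).const_mul _
    have hd1 : Integrable (fun g => damp δ c t (0 + Real.sqrt (ρ (Fin.last r)) * g)) (gaussianReal 0 1) :=
      integrable_of_abs_le ((continuous_damp δ c t).measurable.comp (by fun_prop))
        (K := Real.cosh K) fun g => by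
          rw [abs_of_nonneg (zero_le_one.trans (hmem _).1)]; exact (hmem _).2
    have hc2 := integrable_cosh_mul (Real.sqrt (ρ (Fin.last r) + δ)) 0
    have hd2 : Integrable (fun g => cut K (Real.sqrt (ρ (Fin.last r) + δ) * g)) (gaussianReal 0 1) :=
      integrable_of_abs_le ((continuous_cut K).measurable.comp (by fun_prop))
        (K := Real.cosh K) fun g => by
          rw [abs_of_nonneg (zero_le_one.trans (hcb _).1)]; exact (hcb _).2
    simp only [zero_add] at hc2
    rw [integral_sub hc2 hd2]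
    simp only [spread, Real.exp_add, Real.exp_log (Real.cosh_pos _),
      Real.exp_log (zero_lt_one.trans_le (hmem _).1)]
    rw [integral_sub hc1 hd1, integral_const_mul]
    have a1 : Real.exp (δ / 2) * spread (ρ (Fin.last r)) Real.cosh 0 =
        spread (ρ (Fin.last r) + δ) Real.cosh 0 := by
      rw [spread_cosh hρr, spread_cosh (add_nonneg hρr hδ), ← mul_assoc, ← Real.exp_add]
      ring_nf
    have a2 := spread_damp hct (continuous_cut K).measurable (M := Real.cosh K) (fun y => by
      rw [abs_of_nonneg (zero_le_one.trans (hcb y).1)]; exact (hcb y).2) hδ hρr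
    unfold spread at a1 a2
    rw [a1, a2]
    simp only [zero_add]
  have e3 : ∫ g, (Real.cosh (Real.sqrt (ρ (Fin.last r) + δ) * g) -
      cut K (Real.sqrt (ρ (Fin.last r) + δ) * g)) ∂(gaussianReal 0 1) ≤ gapMean S K := by
    refine integral_mono_of_nonneg (ae_of_all _ fun g => sub_nonneg.2 (cut_le_cosh K _))
      (integrable_gap S K) (ae_of_all _ fun g => cosh_sub_cut_le hK ?_)
    rw [abs_mul, abs_of_nonneg (Real.sqrt_nonneg _)]
    exact mul_le_mul_of_nonneg_right (Real.sqrt_le_sqrt hS) (abs_nonneg g)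
  rw [e2, e1] at key
  linarith

end Vale.Agent.P157.Parisi.Site

namespace Vale.Agent.P157.Parisi

open Site
open Vale.Agent.P168.Cascade (Exps)

/-- Module H, assuming modules F1 (continuity) and A2 (slope). -/
theorem site_stmt (hcont : ContStmt) (hslope : SlopeStmt) : SiteStmt := by
  intro α A C f hα hf Nj xj μj ξ hN hpos hμ hC happ ε hε
  have h : Setup α A C f Nj xj μj ξ := ⟨hα, hf, hN, hpos, hμ, hC, happ⟩
  have hA0 : 0 ≤ A := (abs_nonneg _).trans (hf.b0 0)
  obtain ⟨K, hgap, hK⟩ := (((tendsto_gapMean (α * A ^ 2)).eventually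
    (gt_mem_nhds (show (0 : ℝ) < ε / 6 by linarith))).and (eventually_gt_atTop 0)).exists
  obtain ⟨D, c, t, hct⟩ := isTrig_cut K
  have hM : 1 ≤ Real.cosh K := Real.one_le_cosh _
  obtain ⟨P, hP⟩ := exists_polynomial_near_of_continuousOn 1 (Real.cosh K) Real.log
    (Real.continuousOn_log.mono fun u hu => by
      simp only [Set.mem_compl_iff, Set.mem_singleton_iff]; exact (zero_lt_one.trans_le hu.1).ne')
    (ε / 6) (by linarith)
  have hP' : ∀ u ∈ Set.Icc (1 : ℝ) (Real.cosh K), |P.eval u - Real.log u| ≤ ε / 6 :=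
    fun u hu => (hP u hu).le
  have htail := (tendsto_tailT.const_mul (α / 2 * (A * Real.exp (2 * A))))
  rw [mul_zero] at htail
  obtain ⟨T₁, hT₁⟩ := Filter.eventually_atTop.1
    (htail.eventually (gt_mem_nhds (show (0 : ℝ) < ε / 6 by linarith)))
  refine ⟨max T₁ 0, fun T hT => ?_⟩
  have hT0 : 0 ≤ T := (le_max_right _ _).trans hT
  have htT := hT₁ T ((le_max_left _ _).trans hT)
  have hmom := tendsto_finsetSum (Finset.range (P.natDegree + 1)) fun k _ =>
    (tendsto_cutMom hcont hslope h hct (M := Real.cosh K) (fun y => by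
      rw [abs_of_nonneg (zero_le_one.trans (one_le_cut hK y))]; exact cut_le K y) k).const_mul
        (P.coeff k)
  simp only [mul_zero, Finset.sum_const_zero, mul_sub, Finset.sum_sub_distrib] at hmom
  filter_upwards [Metric.tendsto_nhds.1 hmom (ε / 12) (by linarith),
    eventually_devB hcont h hT0 (η := ε / (12 * Real.cosh K)) (by positivity),
    kappa_bound hcont hslope hf hpos happ hT0 (ε := ε / (6 * α)) (by positivity)] with j hm hd hk
  rw [Real.dist_eq, sub_zero] at hm
  obtain ⟨hρ, hρ0, hδ, hS⟩ := slope_facts hslope hf hα.le (ξ j)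
  have hexps : Exps (ξ j).m := ⟨(ξ j).isPath.pos, (ξ j).isPath.lt_one, (ξ j).isPath.strictMono⟩
  have hmem : ∀ x, 1 ≤ damp (deltaOf α f (ξ j)) c t x ∧
      damp (deltaOf α f (ξ j)) c t x ≤ Real.cosh K := fun x => by
    rw [damp_eq hct hδ]
    exact spread_mem (continuous_cut K).measurable (fun y => ⟨one_le_cut hK y, cut_le K y⟩) _ x
  have h1 := cavVal_ge hf hT0 (hpos j) (scale (Nj j)) (xj j) (μj j) (continuous_cut K)
    (fun y => ⟨one_le_cut hK y, cut_le K y⟩) (cut_le_cosh K) hP' (kappaOf α f T (ξ j))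
  have h2 := abs_le.1 (level_approx hexps (ρ := rhoOf α f (ξ j)) (continuous_damp _ c t) hM hmem hP')
  have h3 := level_cut_ge hexps hρ hρ0 hδ hS hK hct
  have h4 : Real.cosh K * devB f T (scale (Nj j)) (xj j) (Nj j) (μj j) (kappaOf α f T (ξ j)) ≤
      ε / 12 := by
    refine (mul_le_mul_of_nonneg_left hd (Real.cosh_pos _).le).trans_eq ?_
    field_simp
  have h5 := mul_le_mul_of_nonneg_left (abs_le.1 hk).1 (by linarith : (0 : ℝ) ≤ α / 2)
  have e1 : α / 2 * (ε / (6 * α)) = ε / 12 := by field_simp; ring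
  have e2 : deltaOf α f (ξ j) + rhoOf α f (ξ j) (Fin.last _) =
      α * (ξ j).oneVal f (fun z => deriv f z * deriv f z) := by simp [deltaOf]
  have e3 : siteValue (ξ j).m (fun p => α * slope f (ξ j).m (ξ j).q p) =
      siteValue (ξ j).m (rhoOf α f (ξ j)) := rfl
  rw [e3]
  have e4 : kappaOf α f T (ξ j) = α / 2 *
      (ξ j).oneVal f (fun z => deriv (deriv f) z - clampT T z * deriv f z) := rfl
  have := (abs_lt.1 hm).1
  linarith [mul_neg (α / 2) (A * Real.exp (2 * A) * tailT T + ε / (6 * α))]

end Vale.Agent.P157.Parisi
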