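import Vale.Agent.P157.Stein
import Vale.Agent.P157.RSPattern
import Vale.Agent.P157.Parisi.Site.Casc
import Vale.Agent.P157.Parisi.Site.PowMean

/-!
The Gaussian integration by parts for one fresh pattern and the limiting mean of the cavity
exponent.
-/

noncomputable section

open MeasureTheory ProbabilityTheory Filter Topology Finset
open scoped BigOperators

namespace Vale.Agent.P157.Parisi.Site

variable {N : ℕ} {f : ℝ → ℝ} {A : ℝ}

/-- The Gibbs weights tilted by one fresh pattern. -/
def tiltW (E : Cube N → ℝ) (f : ℝ → ℝ) (g : Fin N → ℝ) (σ : Cube N) : ℝ :=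
  gib (fun τ => E τ + f (dot g (unitVec τ))) σ

lemma measurable_tiltW (hf : Continuous f) (E : Cube N → ℝ) (σ : Cube N) :
    Measurable fun g => tiltW E f g σ := by
  have h : ∀ τ : Cube N, Measurable fun g : Fin N → ℝ => E τ + f (dot g (unitVec τ)) :=
    fun τ => (hf.measurable.comp (measurable_dot_left _)).const_add _
  exact (h σ).exp.div (Finset.measurable_sum _ fun τ _ => (h τ).exp)

lemma tiltW_nonneg (E : Cube N → ℝ) (g : Fin N → ℝ) (σ : Cube N) : 0 ≤ tiltW E f g σ :=
  gib_nonneg _ σ

lemma tiltW_le_one (E : Cube N → ℝ) (g : Fin N → ℝ) (σ : Cube N) : tiltW E f g σ ≤ 1 :=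
  (Finset.single_le_sum (fun τ _ => gib_nonneg _ τ) (Finset.mem_univ σ)).trans_eq (sum_gib _)

lemma tiltW_le (hb : ∀ z, |f z| ≤ A) (E : Cube N → ℝ) (g : Fin N → ℝ) (σ : Cube N) :
    tiltW E f g σ ≤ Real.exp (2 * A) * gib E σ := by
  have hA := fun z => abs_le.1 (hb z)
  have h1 : Real.exp (-A) * ∑ τ, Real.exp (E τ) ≤
      ∑ τ, Real.exp (E τ + f (dot g (unitVec τ))) := by
    rw [Finset.mul_sum]
    exact Finset.sum_le_sum fun τ _ => by
      rw [← Real.exp_add]; exact Real.exp_le_exp.2 (by linarith [(hA (dot g (unitVec τ))).1])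
  have h2 : Real.exp (E σ + f (dot g (unitVec σ))) ≤ Real.exp A * Real.exp (E σ) := by
    rw [← Real.exp_add]; exact Real.exp_le_exp.2 (by linarith [(hA (dot g (unitVec σ))).2])
  have hpos := sum_exp_pos E
  refine (div_le_div₀ (by positivity) h2 (mul_pos (Real.exp_pos _) hpos) h1).trans_eq ?_
  rw [gib, mul_div_mul_comm, ← Real.exp_sub]
  ring_nf

lemma sum_unitVec_mul (σ τ : Cube N) :
    ∑ i, unitVec σ i * unitVec τ i = overlap σ τ := by
  simp only [unitVec, overlap, div_mul_div_comm, Real.mul_self_sqrt (Nat.cast_nonneg N),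
    Finset.sum_div]

lemma abs_unitVec_le (σ : Cube N) (i : Fin N) : |unitVec σ i| ≤ 1 := by
  have h : (1 : ℝ) ≤ N := by exact_mod_cast Fin.pos i
  rw [unitVec, abs_div, abs_of_nonneg (Real.sqrt_nonneg _)]
  refine (div_le_one (Real.sqrt_pos.2 (by linarith))).2 ?_
  have : |sv σ i| = 1 := by unfold sv; split_ifs <;> simp
  rw [this]
  exact Real.one_le_sqrt.2 h

lemma abs_overlap_le (σ τ : Cube N) : |overlap σ τ| ≤ 1 := by
  have h : |∑ i, sv σ i * sv τ i| ≤ (N : ℝ) := by
    refine (Finset.abs_sum_le_sum_abs _ _).trans_eq ?_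
    have : ∀ i, |sv σ i * sv τ i| = 1 := fun i => by unfold sv; split_ifs <;> simp
    simp [this]
  rw [overlap, abs_div, Nat.abs_cast]
  exact div_le_one_of_le₀ h (Nat.cast_nonneg N)

lemma sum_unitVec_sq (hN : 0 < N) (σ : Cube N) : ∑ i, unitVec σ i ^ 2 = 1 := by
  have h : ∀ i, unitVec σ i ^ 2 = 1 / (N : ℝ) := fun i => by
    rw [unitVec, div_pow, Real.sq_sqrt (Nat.cast_nonneg N)]
    unfold sv; split_ifs <;> simp
  rw [Finset.sum_congr rfl fun i _ => h i, Finset.sum_const, Finset.card_univ, Fintype.card_fin,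
    nsmul_eq_mul]
  field_simp

lemma dot_update {ι : Type*} [Fintype ι] [DecidableEq ι] (g u : ι → ℝ) (i : ι) (t : ℝ) :
    dot (Function.update g i t) u = dot g u + (t - g i) * u i := by
  have h : ∀ j, Function.update g i t j * u j = g j * u j + if j = i then (t - g i) * u i else 0 :=
    fun j => by
      rcases eq_or_ne j i with rfl | hj
      · simp; ring
      · simp [hj]
  simp only [dot, h, Finset.sum_add_distrib, Finset.sum_ite_eq', Finset.mem_univ, if_true]

/-- One replica mean under one fresh pattern. -/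
def oneMean (E : Cube N → ℝ) (f h : ℝ → ℝ) : ℝ :=
  ∫ g, ∑ σ, tiltW E f g σ * h (dot g (unitVec σ)) ∂gam (Fin N)

/-- Two replica mean of the overlap times the slopes under one fresh pattern. -/
def twoMean (E : Cube N → ℝ) (f : ℝ → ℝ) : ℝ :=
  ∫ g, ∑ σ, ∑ τ, tiltW E f g σ * tiltW E f g τ *
    (overlap σ τ * (deriv f (dot g (unitVec σ)) * deriv f (dot g (unitVec τ)))) ∂gam (Fin N)

/-- The mean size of the clipped part of a standard Gaussian. -/
def tailT (T : ℝ) : ℝ := ∫ z, |z - clampT T z| ∂(gaussianReal 0 1)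

lemma measurable_clampT (T : ℝ) : Measurable (clampT T) :=
  measurable_const.max (measurable_const.min measurable_id)

lemma continuous_clampT (T : ℝ) : Continuous (clampT T) :=
  continuous_const.max (continuous_const.min continuous_id)

lemma abs_clampT_le {T : ℝ} (hT : 0 ≤ T) (z : ℝ) : |clampT T z| ≤ T :=
  abs_le.2 ⟨le_max_left _ _, max_le (by linarith) (min_le_left _ _)⟩

lemma abs_sub_clampT_le {T : ℝ} (hT : 0 ≤ T) (z : ℝ) : |z - clampT T z| ≤ |z| := by
  unfold clampT
  rcases le_total z (-T) with h | h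
  · rw [min_eq_right (by linarith), max_eq_left h, abs_of_nonpos (by linarith),
      abs_of_nonpos (by linarith)]
    linarith
  rcases le_total z T with h' | h'
  · rw [min_eq_right h', max_eq_right h, sub_self, abs_zero]; exact abs_nonneg z
  · rw [min_eq_left h', max_eq_right (by linarith), abs_of_nonneg (by linarith),
      abs_of_nonneg (by linarith)]
    linarith

lemma integrable_abs_id : Integrable (fun z : ℝ => |z|) (gaussianReal 0 1) :=
  ((memLp_id_gaussianReal (μ := 0) (v := 1) 1).integrable le_rfl).abs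

lemma tendsto_tailT : Tendsto tailT atTop (𝓝 0) := by
  have h : Tendsto (fun T => ∫ z, |z - clampT T z| ∂(gaussianReal 0 1)) atTop (𝓝 (∫ _z : ℝ, (0 : ℝ) ∂(gaussianReal 0 1))) := by
    refine tendsto_integral_filter_of_dominated_convergence (fun z => |z|)
      (Eventually.of_forall fun T => (measurable_id.sub (measurable_clampT T)).abs.aestronglyMeasurable)
      ?_ integrable_abs_id (ae_of_all _ fun z => ?_)
    · filter_upwards [eventually_ge_atTop 0] with T hT
      exact ae_of_all _ fun z => by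
        rw [Real.norm_eq_abs, abs_abs]; exact abs_sub_clampT_le hT z
    · refine tendsto_const_nhds.congr' ?_
      filter_upwards [eventually_ge_atTop |z|] with T hT
      have h := abs_le.1 hT
      simp [clampT, min_eq_right h.2, max_eq_right (show -T ≤ z by linarith)]
  show Tendsto (fun T => ∫ z, |z - clampT T z| ∂(gaussianReal 0 1)) atTop (𝓝 0)
  simpa using h

lemma oneMean_ibp (hf : Smooth f A) (hN : 0 < N) {T : ℝ} (hT : 0 ≤ T) (E : Cube N → ℝ) :
    |oneMean E f (fun z => deriv (deriv f) z - clampT T z * deriv f z) +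
        oneMean E f (fun z => deriv f z * deriv f z) - twoMean E f| ≤
      A * Real.exp (2 * A) * tailT T := by
  have hfc := hf.continuous
  have hA0 : 0 ≤ A := (abs_nonneg _).trans (hf.b0 0)
  set S : (Fin N → ℝ) → Cube N → ℝ := fun g σ => dot g (unitVec σ)
  set p : (Fin N → ℝ) → Cube N → ℝ := fun g σ => tiltW E f g σ
  have hp0 : ∀ g σ, 0 ≤ p g σ := fun g σ => gib_nonneg _ _
  have hp1 : ∀ g, ∑ σ, p g σ = 1 := fun g => sum_gib _
  have hpm : ∀ σ, Measurable fun g => p g σ := measurable_tiltW hfc E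
  have hSm : ∀ σ : Cube N, Measurable fun g : Fin N → ℝ => S g σ := fun σ => measurable_dot_left _
  set M : (Fin N → ℝ) → (Fin N) → ℝ := fun g i => ∑ τ, p g τ * (deriv f (S g τ) * unitVec τ i)
  have hMb : ∀ g i, |M g i| ≤ A := fun g i => by
    refine (Finset.abs_sum_le_sum_abs _ _).trans ((Finset.sum_le_sum fun τ _ => ?_).trans_eq
      (show ∑ τ, p g τ * A = A by rw [← Finset.sum_mul, hp1, one_mul]))
    rw [abs_mul, abs_of_nonneg (hp0 g τ), abs_mul]
    exact mul_le_mul_of_nonneg_left ((mul_le_mul (hf.b1 _) (abs_unitVec_le τ i) (abs_nonneg _)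
      hA0).trans_eq (mul_one A)) (hp0 g τ)
  have hMm : ∀ i, Measurable fun g => M g i := fun i =>
    Finset.measurable_sum _ fun τ _ => (hpm τ).mul
      (((hf.d1.continuous.measurable).comp (hSm τ)).mul_const _)
  -- integration by parts for one configuration
  have hibp : ∀ σ, ∫ g, S g σ * (p g σ * deriv f (S g σ)) ∂gam (Fin N) =
      ∫ g, (p g σ * (deriv (deriv f) (S g σ) + deriv f (S g σ) * deriv f (S g σ)) -
        ∑ τ, p g σ * p g τ * (overlap σ τ * (deriv f (S g σ) * deriv f (S g τ)))) ∂gam (Fin N) := by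
    intro σ
    have h := integral_dot_mul (unitVec σ) (G := fun g => p g σ * deriv f (S g σ))
      (G' := fun i g => p g σ * (deriv (deriv f) (S g σ) + deriv f (S g σ) * deriv f (S g σ)) *
        unitVec σ i - p g σ * deriv f (S g σ) * M g i) (A := A)
      (A' := (A + A * A) + A * A) ((hpm σ).mul (hf.d1.continuous.measurable.comp (hSm σ)))
      (fun i => ((((hpm σ).mul ((hf.d2.continuous.measurable.comp (hSm σ)).add
        ((hf.d1.continuous.measurable.comp (hSm σ)).mul
          (hf.d1.continuous.measurable.comp (hSm σ))))).mul_const _).sub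
            (((hpm σ).mul (hf.d1.continuous.measurable.comp (hSm σ))).mul (hMm i))))
      (fun g => by
        rw [abs_mul, abs_of_nonneg (hp0 g σ)]
        exact (mul_le_mul (tiltW_le_one E g σ) (hf.b1 _) (abs_nonneg _) zero_le_one).trans_eq
          (one_mul A))
      (fun i g => by
        refine (abs_sub _ _).trans (add_le_add ?_ ?_)
        · rw [abs_mul, abs_mul, abs_of_nonneg (hp0 g σ)]
          have hq : |deriv (deriv f) (S g σ) + deriv f (S g σ) * deriv f (S g σ)| ≤ A + A * A :=
            (abs_add_le _ _).trans (add_le_add (hf.b2 _)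
              (by rw [abs_mul]; exact mul_le_mul (hf.b1 _) (hf.b1 _) (abs_nonneg _) hA0))
          exact (mul_le_mul (mul_le_mul (tiltW_le_one E g σ) hq (abs_nonneg _) zero_le_one)
            (abs_unitVec_le σ i) (abs_nonneg _) (by positivity)).trans_eq (by ring)
        · rw [abs_mul, abs_mul, abs_of_nonneg (hp0 g σ)]
          refine (mul_le_mul (mul_le_mul (tiltW_le_one E g σ) (hf.b1 _) (abs_nonneg _) zero_le_one)
            (hMb g i) (abs_nonneg _) (by positivity)).trans_eq (by ring))
      (fun g i => by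
        have hS : ∀ τ : Cube N, HasDerivAt
            (fun t => dot (Function.update g i t) (unitVec τ)) (unitVec τ i) (g i) := fun τ => by
          simp only [dot_update]
          simpa using (((hasDerivAt_id (g i)).sub_const (g i)).mul_const (unitVec τ i)).const_add
            (dot g (unitVec τ))
        have hu : Function.update g i (g i) = g := Function.update_eq_self i g
        have hex : ∀ τ : Cube N, HasDerivAt
            (fun t => Real.exp (E τ + f (dot (Function.update g i t) (unitVec τ))))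
            (Real.exp (E τ + f (S g τ)) * (deriv f (S g τ) * unitVec τ i)) (g i) := fun τ => by
          have h := ((hf.d0 _).hasDerivAt.comp (g i) (hS τ)).const_add (E τ)
          simpa [hu, S, Function.comp_def] using h.exp
        have hd := ((hex σ).div (HasDerivAt.fun_sum fun τ _ => hex τ)
          (sum_exp_pos _).ne').mul ((hf.d1 _).hasDerivAt.comp (g i) (hS σ))
        refine HasDerivAt.congr_deriv hd ?_
        have hne := (sum_exp_pos fun τ => E τ + f (S g τ)).ne'
        simp only [p, tiltW, gib, hu, S, M, Pi.div_apply, Function.comp_apply] at hne ⊢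
        simp only [div_mul_eq_mul_div, ← Finset.sum_div]
        field_simp
        ring)
    refine h.trans (integral_congr_ae (ae_of_all _ fun g => ?_))
    have e1 : ∑ i, unitVec σ i * (p g σ * (deriv (deriv f) (S g σ) +
        deriv f (S g σ) * deriv f (S g σ)) * unitVec σ i) =
        p g σ * (deriv (deriv f) (S g σ) + deriv f (S g σ) * deriv f (S g σ)) := by
      have : ∀ i, unitVec σ i * (p g σ * (deriv (deriv f) (S g σ) +
          deriv f (S g σ) * deriv f (S g σ)) * unitVec σ i) = p g σ * (deriv (deriv f) (S g σ) +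
          deriv f (S g σ) * deriv f (S g σ)) * unitVec σ i ^ 2 := fun i => by ring
      rw [Finset.sum_congr rfl fun i _ => this i, ← Finset.mul_sum, sum_unitVec_sq hN, mul_one]
    have e2 : ∑ i, unitVec σ i * (p g σ * deriv f (S g σ) * M g i) =
        ∑ τ, p g σ * p g τ * (overlap σ τ * (deriv f (S g σ) * deriv f (S g τ))) := by
      simp only [M, Finset.mul_sum, ← sum_unitVec_mul, Finset.sum_mul]
      rw [Finset.sum_comm]
      exact Finset.sum_congr rfl fun τ _ => Finset.sum_congr rfl fun i _ => by ring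
    simp only [mul_sub, Finset.sum_sub_distrib, e1, e2]
  -- integrability of the pieces
  have hiD : ∀ σ, Integrable (fun g => p g σ * deriv (deriv f) (S g σ)) (gam (Fin N)) := fun σ =>
    integrable_of_abs_le ((hpm σ).mul (hf.d2.continuous.measurable.comp (hSm σ))) (K := 1 * A)
      fun g => by
        show |p g σ * deriv (deriv f) (S g σ)| ≤ _
        rw [abs_mul, abs_of_nonneg (hp0 g σ)]
        exact mul_le_mul (tiltW_le_one E g σ) (hf.b2 _) (abs_nonneg _) zero_le_one
  have hiQ : ∀ σ, Integrable (fun g => p g σ * (deriv f (S g σ) * deriv f (S g σ)))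
      (gam (Fin N)) := fun σ =>
    integrable_of_abs_le ((hpm σ).mul ((hf.d1.continuous.measurable.comp (hSm σ)).mul
      (hf.d1.continuous.measurable.comp (hSm σ)))) (K := 1 * (A * A)) fun g => by
        show |p g σ * (deriv f (S g σ) * deriv f (S g σ))| ≤ _
        rw [abs_mul, abs_of_nonneg (hp0 g σ), abs_mul]
        exact mul_le_mul (tiltW_le_one E g σ) (mul_le_mul (hf.b1 _) (hf.b1 _) (abs_nonneg _) hA0)
          (by positivity) zero_le_one
  have hiR : ∀ σ, Integrable (fun g =>
      ∑ τ, p g σ * p g τ * (overlap σ τ * (deriv f (S g σ) * deriv f (S g τ)))) (gam (Fin N)) :=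
    fun σ => integrable_finsetSum _ fun τ _ => integrable_of_abs_le
      (((hpm σ).mul (hpm τ)).mul (((hf.d1.continuous.measurable.comp (hSm σ)).mul
        (hf.d1.continuous.measurable.comp (hSm τ))).const_mul _)) (K := 1 * (1 * (A * A))) fun g => by
        show |p g σ * p g τ * (overlap σ τ * (deriv f (S g σ) * deriv f (S g τ)))| ≤ _
        rw [abs_mul, abs_of_nonneg (mul_nonneg (hp0 g σ) (hp0 g τ)), abs_mul, abs_mul]
        exact mul_le_mul (mul_le_one₀ (tiltW_le_one E g σ) (hp0 g τ) (tiltW_le_one E g τ))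
          (mul_le_mul (abs_overlap_le σ τ) (mul_le_mul (hf.b1 _) (hf.b1 _) (abs_nonneg _) hA0)
            (by positivity) zero_le_one) (by positivity) zero_le_one
  have hdotint : ∀ σ : Cube N, Integrable (fun g => |S g σ|) (gam (Fin N)) := fun σ => by
    have h := map_dot_unit (sum_unitVec_sq hN σ)
    exact (integrable_map_measure (f := fun g : Fin N → ℝ => dot g (unitVec σ))
      (g := fun z : ℝ => |z|) continuous_abs.aestronglyMeasurable (hSm σ).aemeasurable).1
      (h ▸ integrable_abs_id)
  have hiS : ∀ σ, Integrable (fun g => S g σ * (p g σ * deriv f (S g σ))) (gam (Fin N)) := fun σ =>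
    ((hdotint σ).const_mul A).mono' ((hSm σ).mul ((hpm σ).mul
      (hf.d1.continuous.measurable.comp (hSm σ)))).aestronglyMeasurable (ae_of_all _ fun g => by
      rw [Real.norm_eq_abs, abs_mul, abs_mul, abs_of_nonneg (hp0 g σ), mul_comm A]
      exact mul_le_mul_of_nonneg_left ((mul_le_mul (tiltW_le_one E g σ) (hf.b1 _) (abs_nonneg _)
        zero_le_one).trans_eq (one_mul A)) (abs_nonneg _))
  have hiC : ∀ σ, Integrable (fun g => p g σ * (clampT T (S g σ) * deriv f (S g σ)))
      (gam (Fin N)) := fun σ => integrable_of_abs_le ((hpm σ).mul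
        (((measurable_clampT T).comp (hSm σ)).mul (hf.d1.continuous.measurable.comp (hSm σ))))
      (K := 1 * (T * A)) fun g => by
        show |p g σ * (clampT T (S g σ) * deriv f (S g σ))| ≤ _
        rw [abs_mul, abs_of_nonneg (hp0 g σ), abs_mul]
        exact mul_le_mul (tiltW_le_one E g σ) (mul_le_mul (abs_clampT_le hT _) (hf.b1 _)
          (abs_nonneg _) hT) (by positivity) zero_le_one
  -- the identity
  have key : oneMean E f (fun z => deriv (deriv f) z - clampT T z * deriv f z) +
      oneMean E f (fun z => deriv f z * deriv f z) - twoMean E f =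
      ∫ g, ∑ σ, (S g σ * (p g σ * deriv f (S g σ)) -
        p g σ * (clampT T (S g σ) * deriv f (S g σ))) ∂gam (Fin N) := by
    have e1 : oneMean E f (fun z => deriv (deriv f) z - clampT T z * deriv f z) =
        (∑ σ, ∫ g, p g σ * deriv (deriv f) (S g σ) ∂gam (Fin N)) -
          ∑ σ, ∫ g, p g σ * (clampT T (S g σ) * deriv f (S g σ)) ∂gam (Fin N) := by
      simp only [oneMean, mul_sub]
      rw [← Finset.sum_sub_distrib]
      exact (integral_finsetSum _ fun σ _ => (hiD σ).sub (hiC σ)).trans
        (Finset.sum_congr rfl fun σ _ => integral_sub (hiD σ) (hiC σ))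
    have e2 : oneMean E f (fun z => deriv f z * deriv f z) =
        ∑ σ, ∫ g, p g σ * (deriv f (S g σ) * deriv f (S g σ)) ∂gam (Fin N) :=
      integral_finsetSum _ fun σ _ => hiQ σ
    have e3 : twoMean E f = ∑ σ, ∫ g,
        ∑ τ, p g σ * p g τ * (overlap σ τ * (deriv f (S g σ) * deriv f (S g τ))) ∂gam (Fin N) :=
      integral_finsetSum _ fun σ _ => hiR σ
    have e5 : ∫ g, ∑ σ, (S g σ * (p g σ * deriv f (S g σ)) -
        p g σ * (clampT T (S g σ) * deriv f (S g σ))) ∂gam (Fin N) =
        ∑ σ, ((∫ g, S g σ * (p g σ * deriv f (S g σ)) ∂gam (Fin N)) -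
          ∫ g, p g σ * (clampT T (S g σ) * deriv f (S g σ)) ∂gam (Fin N)) :=
      (integral_finsetSum _ fun σ _ => (hiS σ).sub (hiC σ)).trans
        (Finset.sum_congr rfl fun σ _ => integral_sub (hiS σ) (hiC σ))
    rw [e5, Finset.sum_sub_distrib, Finset.sum_congr rfl fun σ _ => hibp σ]
    have e4 : ∀ σ, ∫ g, (p g σ * (deriv (deriv f) (S g σ) + deriv f (S g σ) * deriv f (S g σ)) -
        ∑ τ, p g σ * p g τ * (overlap σ τ * (deriv f (S g σ) * deriv f (S g τ)))) ∂gam (Fin N) =
        (∫ g, p g σ * deriv (deriv f) (S g σ) ∂gam (Fin N)) +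
          (∫ g, p g σ * (deriv f (S g σ) * deriv f (S g σ)) ∂gam (Fin N)) -
          ∫ g, ∑ τ, p g σ * p g τ * (overlap σ τ * (deriv f (S g σ) * deriv f (S g τ)))
            ∂gam (Fin N) := fun σ => by
      simp only [mul_add]
      exact (integral_sub ((hiD σ).add (hiQ σ)) (hiR σ)).trans
        (congrArg (· - _) (integral_add (hiD σ) (hiQ σ)))
    rw [Finset.sum_congr rfl fun σ _ => e4 σ, Finset.sum_sub_distrib, Finset.sum_add_distrib,
      e1, e2, e3]
    ring
  rw [key]
  have hbd : ∀ σ : Cube N, Integrable (fun g => A * Real.exp (2 * A) *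
      (gib E σ * |S g σ - clampT T (S g σ)|)) (gam (Fin N)) := fun σ =>
    ((((hdotint σ).mono' ((hSm σ).sub ((measurable_clampT T).comp (hSm σ))).abs.aestronglyMeasurable
      (ae_of_all _ fun g => by
        rw [Real.norm_eq_abs, abs_abs]; exact abs_sub_clampT_le hT _)).const_mul _).const_mul _)
  have hl : ∀ σ, ∫ g, |S g σ - clampT T (S g σ)| ∂gam (Fin N) = tailT T := fun σ => by
    simp only [tailT]
    rw [show gaussianReal 0 1 = (gam (Fin N)).map (fun g => dot g (unitVec σ)) from
      (map_dot_unit (sum_unitVec_sq hN σ)).symm, integral_map (hSm σ).aemeasurable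
      (show Continuous fun z => |z - clampT T z| from
        (continuous_id.sub (continuous_clampT T)).abs).aestronglyMeasurable]
  calc |∫ g, ∑ σ, (S g σ * (p g σ * deriv f (S g σ)) -
        p g σ * (clampT T (S g σ) * deriv f (S g σ))) ∂gam (Fin N)|
      ≤ ∫ g, ∑ σ, A * Real.exp (2 * A) * (gib E σ * |S g σ - clampT T (S g σ)|) ∂gam (Fin N) := by
        rw [← Real.norm_eq_abs]
        refine norm_integral_le_of_norm_le (integrable_finsetSum _ fun σ _ => hbd σ)
          (ae_of_all _ fun g => ?_)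
        rw [Real.norm_eq_abs]
        refine (Finset.abs_sum_le_sum_abs _ _).trans (Finset.sum_le_sum fun σ _ => ?_)
        rw [show S g σ * (p g σ * deriv f (S g σ)) - p g σ * (clampT T (S g σ) * deriv f (S g σ)) =
          p g σ * deriv f (S g σ) * (S g σ - clampT T (S g σ)) by ring, abs_mul, abs_mul,
          abs_of_nonneg (hp0 g σ), ← mul_assoc (A * Real.exp (2 * A))]
        refine mul_le_mul_of_nonneg_right ?_ (abs_nonneg _)
        calc p g σ * |deriv f (S g σ)| ≤ (Real.exp (2 * A) * gib E σ) * A :=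
              mul_le_mul (tiltW_le hf.b0 E g σ) (hf.b1 _) (abs_nonneg _)
                (mul_nonneg (Real.exp_pos _).le (gib_nonneg _ _))
          _ = A * Real.exp (2 * A) * gib E σ := by ring
    _ = A * Real.exp (2 * A) * tailT T := by
        rw [integral_finsetSum _ fun σ _ => hbd σ]
        simp only [integral_const_mul, hl, ← Finset.sum_mul, ← Finset.mul_sum]
        rw [sum_gib, one_mul]

lemma sysState_w {L : ℕ} (f : ℝ → ℝ) (s : ℝ) (x : Fin L → ℝ) (μ : ℝ) (d : Dis N L) :
    (sysState N f s x μ).w d = gib (totalH f s x d) := rfl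

variable {L : ℕ} {s : ℝ} {x : Fin L → ℝ}

lemma integral_fin_one (F : (Fin N → ℝ) → ℝ) :
    ∫ g : Fin 1 → Fin N → ℝ, F (g 0) ∂(Measure.pi fun _ => gam (Fin N)) = ∫ g, F g ∂gam (Fin N) :=
  (measurePreserving_funUnique (gam (Fin N)) (Fin 1)).integral_comp
    (MeasurableEquiv.measurableEmbedding _) F

lemma patMean_one (f : ℝ → ℝ) (μ : ℝ) (h h' : ℝ → ℝ) :
    (sysState N f s x μ).patMean f (fun _ => 1) (fun _ : Fin 1 => (⟨0, 0, h, h'⟩ : Obs 1)) =
      ∫ d, oneMean (totalH f s x d) f (fun z => h z * h' z) ∂disLaw N L μ := by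
  have key : ∀ d : Dis N L,
      (∫ g : Fin 1 → Fin N → ℝ, (∑ σ : Fin 1 → Cube N,
          (∏ l, gib (totalH f s x d) (σ l) * Real.exp (∑ j, f (dot (g j) (unitVec (σ l))))) *
            (1 * ∏ j : Fin 1, (⟨0, 0, h, h'⟩ : Obs 1).eval fun l => dot (g j) (unitVec (σ l)))) /
        (∑ σ : Cube N, gib (totalH f s x d) σ *
          Real.exp (∑ j, f (dot (g j) (unitVec σ)))) ^ 1 ∂(Measure.pi fun _ => gam (Fin N))) =
      oneMean (totalH f s x d) f fun z => h z * h' z := fun d => by
    unfold oneMean
    rw [← integral_fin_one]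
    refine integral_congr_ae (ae_of_all _ fun g => ?_)
    beta_reduce
    rw [integrand_eq]
    simp only [Fin.sum_univ_one, Fin.prod_univ_one, one_mul, Obs.eval]
    exact rep_one _ fun σ => h (dot (g 0) (unitVec σ)) * h' (dot (g 0) (unitVec σ))
  exact integral_congr_ae (ae_of_all _ key)

lemma patMean_two (f : ℝ → ℝ) (μ : ℝ) :
    (sysState N f s x μ).patMean f (fun R => R 0 1)
        (fun _ : Fin 1 => (⟨0, 1, deriv f, deriv f⟩ : Obs 2)) =
      ∫ d, twoMean (totalH f s x d) f ∂disLaw N L μ := by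
  have key : ∀ d : Dis N L,
      (∫ g : Fin 1 → Fin N → ℝ, (∑ σ : Fin 2 → Cube N,
          (∏ l, gib (totalH f s x d) (σ l) * Real.exp (∑ j, f (dot (g j) (unitVec (σ l))))) *
            (overlaps σ 0 1 *
              ∏ j : Fin 1, (⟨0, 1, deriv f, deriv f⟩ : Obs 2).eval fun l => dot (g j) (unitVec (σ l)))) /
        (∑ σ : Cube N, gib (totalH f s x d) σ *
          Real.exp (∑ j, f (dot (g j) (unitVec σ)))) ^ 2 ∂(Measure.pi fun _ => gam (Fin N))) =
      twoMean (totalH f s x d) f := fun d => by
    unfold twoMean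
    rw [← integral_fin_one]
    refine integral_congr_ae (ae_of_all _ fun g => ?_)
    beta_reduce
    rw [integrand_eq]
    simp only [Fin.sum_univ_one, Fin.prod_univ_one, Obs.eval, rep]
    rw [← (finTwoArrowEquiv (Cube N)).symm.sum_comp, Fintype.sum_prod_type]
    exact Finset.sum_congr rfl fun σ _ => Finset.sum_congr rfl fun τ _ => by
      simp [Fin.prod_univ_two, overlaps, tiltW]
  exact integral_congr_ae (ae_of_all _ key)

lemma measurable_integrand {h : ℝ → ℝ} (hf : Continuous f) (hh : Measurable h) :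
    Measurable fun d : Dis N L => oneMean (totalH f s x d) f h := by
  have hE : ∀ τ, Measurable fun d : Dis N L => totalH f s x d τ := fun τ => by
    simp only [totalH_eq]
    exact measurable_headOf_apply (Ψ := fun _ q => finH f s x q τ) fun m => measurable_finH hf τ
  have h2 : ∀ τ : Cube N, Measurable fun p : Dis N L × (Fin N → ℝ) =>
      totalH f s x p.1 τ + f (dot p.2 (unitVec τ)) := fun τ =>
    ((hE τ).comp measurable_fst).add
      (hf.measurable.comp ((measurable_dot_left _).comp measurable_snd))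
  refine (StronglyMeasurable.integral_prod_right' (f := fun p : Dis N L × (Fin N → ℝ) =>
    ∑ σ, tiltW (totalH f s x p.1) f p.2 σ * h (dot p.2 (unitVec σ))) ?_).measurable
  exact (Finset.measurable_sum _ fun σ _ => ((h2 σ).exp.div
    (Finset.measurable_sum _ fun τ _ => (h2 τ).exp)).mul
      (hh.comp ((measurable_dot_left _).comp measurable_snd))).stronglyMeasurable

lemma abs_oneMean_le (E : Cube N → ℝ) {h : ℝ → ℝ} {B : ℝ} (hb : ∀ z, |h z| ≤ B) :
    |oneMean E f h| ≤ B :=
  abs_integral_le fun g => (Finset.abs_sum_le_sum_abs _ _).trans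
    ((Finset.sum_le_sum (g := fun σ => tiltW E f g σ * B) fun σ _ => by
    rw [abs_mul, abs_of_nonneg (tiltW_nonneg E g σ)]
    exact mul_le_mul_of_nonneg_left (hb _) (tiltW_nonneg E g σ)).trans_eq
      (by rw [← Finset.sum_mul]; exact (congrArg (· * B) (sum_gib _)).trans (one_mul B)))

/-- The limiting mean of the cavity exponent. -/
theorem kappa_bound (hcont : ContStmt) (hslope : SlopeStmt) {A : ℝ} {f : ℝ → ℝ}
    (hf : Smooth f A) {Nj : ℕ → ℕ} {xj : ∀ j, Fin (Nj j) → ℝ} {μj : ℕ → ℝ} {ξ : ℕ → Path}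
    (hpos : ∀ j, 0 < Nj j)
    (happ : Approx Nj (fun j => sysState (Nj j) f (scale (Nj j)) (xj j) (μj j)) ξ)
    {T : ℝ} (hT : 0 ≤ T) {ε : ℝ} (hε : 0 < ε) :
    ∀ᶠ j in atTop,
      |(ξ j).oneVal f (fun z => deriv (deriv f) z - clampT T z * deriv f z) +
        (ξ j).oneVal f (fun z => deriv f z * deriv f z) -
        ∑ p, weight (ξ j).m p * (ξ j).q p * slope f (ξ j).m (ξ j).q p| ≤
      A * Real.exp (2 * A) * tailT T + ε := by
  have hfc := hf.continuous
  have hA0 : 0 ≤ A := (abs_nonneg _).trans (hf.b0 0)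
  set h1 : ℝ → ℝ := fun z => deriv (deriv f) z - clampT T z * deriv f z
  have hh1c : Continuous h1 := hf.d2.continuous.sub ((continuous_clampT T).mul hf.d1.continuous)
  have hh1b : ∀ z, |h1 z| ≤ A + T * A := fun z => (abs_sub _ _).trans (add_le_add (hf.b2 z) (by
    rw [abs_mul]; exact mul_le_mul (abs_clampT_le hT z) (hf.b1 z) (abs_nonneg _) hT))
  set S := fun j => sysState (Nj j) f (scale (Nj j)) (xj j) (μj j)
  have hgood : ∀ j, (S j).IsGood := fun j => sysState_isGood hfc _
  have c1 := hcont A f hf Nj S ξ hpos hgood happ 1 1 (fun _ => 1)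
    (fun _ => ⟨0, 0, h1, fun _ => 1⟩) continuous_const fun _ => ⟨hh1c, continuous_const,
      A + T * A + 1, fun z => ⟨(hh1b z).trans (by linarith),
        by simp only [abs_one]; nlinarith [mul_nonneg hT hA0]⟩⟩
  have c2 := hcont A f hf Nj S ξ hpos hgood happ 1 1 (fun _ => 1)
    (fun _ => ⟨0, 0, deriv f, deriv f⟩) continuous_const fun _ =>
      ⟨hf.d1.continuous, hf.d1.continuous, A, fun z => ⟨hf.b1 z, hf.b1 z⟩⟩
  have c3 := hcont A f hf Nj S ξ hpos hgood happ 1 2 (fun R => R 0 1)
    (fun _ => ⟨0, 1, deriv f, deriv f⟩) (by fun_prop) fun _ =>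
      ⟨hf.d1.continuous, hf.d1.continuous, A, fun z => ⟨hf.b1 z, hf.b1 z⟩⟩
  have h := (c1.add c2).sub c3
  simp only [add_zero, sub_zero] at h
  filter_upwards [Metric.tendsto_nhds.1 h ε hε] with j hj
  rw [Real.dist_eq, sub_zero] at hj
  have t1 : ∀ o : Obs 1, o.a = 0 → o.b = 0 →
      (ξ j).treePat f (fun _ => 1) (fun _ : Fin 1 => o) =
        (ξ j).oneVal f (fun z => o.h z * o.h' z) := fun o ha hb => by
    simp only [Path.treePat, Fin.prod_univ_one, one_mul]
    rw [sum_shape_one]
    simp [Obs.val, ha, hb]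
  have t2 : (ξ j).treePat f (fun R => R 0 1)
      (fun _ : Fin 1 => (⟨0, 1, deriv f, deriv f⟩ : Obs 2)) =
      ∑ p, weight (ξ j).m p * (ξ j).q p * slope f (ξ j).m (ξ j).q p := by
    simp only [Path.treePat, Fin.prod_univ_one]
    have e : ∀ v : Vale.Agent.P168.Shape (ξ j).r 2, (ξ j).gram v 0 1 *
        (⟨0, 1, deriv f, deriv f⟩ : Obs 2).val (ξ j) f v =
        (fun p => (ξ j).q p * slope f (ξ j).m (ξ j).q p) (v 0 1) := fun v => by
      simp [Path.gram, Obs.val, ((hslope f A hf (ξ j)).2 (v 0 1)).2.1]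
    rw [Finset.sum_congr rfl fun v _ => by rw [e v]]
    exact (sum_shape_two (ξ j).m fun p => (ξ j).q p * slope f (ξ j).m (ξ j).q p).trans
      (Finset.sum_congr rfl fun p _ => by ring)
  rw [t1 _ rfl rfl, t1 _ rfl rfl, t2] at hj
  simp only [mul_one] at hj
  have hiA : ∀ (h : ℝ → ℝ) (B : ℝ), Measurable h → (∀ z, |h z| ≤ B) →
      Integrable (fun d : Dis (Nj j) (Nj j) =>
        oneMean (totalH f (scale (Nj j)) (xj j) d) f h) (disLaw (Nj j) (Nj j) (μj j)) :=
    fun h B hm hb => integrable_of_abs_le (measurable_integrand hfc hm) fun d => abs_oneMean_le _ hb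
  have hQb : ∀ z, |deriv f z * deriv f z| ≤ A * A := fun z => by
    rw [abs_mul]; exact mul_le_mul (hf.b1 z) (hf.b1 z) (abs_nonneg _) hA0
  have hR : |(S j).patMean f (fun _ => 1) (fun _ : Fin 1 => (⟨0, 0, h1, fun _ => 1⟩ : Obs 1)) +
      (S j).patMean f (fun _ => 1) (fun _ : Fin 1 => (⟨0, 0, deriv f, deriv f⟩ : Obs 1)) -
      (S j).patMean f (fun R => R 0 1) (fun _ : Fin 1 => (⟨0, 1, deriv f, deriv f⟩ : Obs 2))| ≤
      A * Real.exp (2 * A) * tailT T := by
    simp only [S, patMean_one, patMean_two, mul_one]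
    have i1 := hiA h1 _ hh1c.measurable hh1b
    have i2 := hiA (fun z => deriv f z * deriv f z) _ (hf.d1.continuous.mul hf.d1.continuous).measurable hQb
    have htm : Measurable fun d : Dis (Nj j) (Nj j) =>
        twoMean (totalH f (scale (Nj j)) (xj j) d) f := by
      have hE : ∀ τ, Measurable fun d : Dis (Nj j) (Nj j) =>
          totalH f (scale (Nj j)) (xj j) d τ := fun τ => by
        simp only [totalH_eq]
        exact measurable_headOf_apply (Ψ := fun _ q => finH f (scale (Nj j)) (xj j) q τ)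
          fun m => measurable_finH hfc τ
      have hw : ∀ σ : Cube (Nj j), Measurable fun p : Dis (Nj j) (Nj j) × (Fin (Nj j) → ℝ) =>
          tiltW (totalH f (scale (Nj j)) (xj j) p.1) f p.2 σ := fun σ => by
        have h2 : ∀ τ : Cube (Nj j), Measurable fun p : Dis (Nj j) (Nj j) × (Fin (Nj j) → ℝ) =>
            totalH f (scale (Nj j)) (xj j) p.1 τ + f (dot p.2 (unitVec τ)) := fun τ =>
          ((hE τ).comp measurable_fst).add
            (hfc.measurable.comp ((measurable_dot_left _).comp measurable_snd))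
        exact (h2 σ).exp.div (Finset.measurable_sum _ fun τ _ => (h2 τ).exp)
      exact (Finset.measurable_sum _ fun σ _ => Finset.measurable_sum _ fun τ _ =>
        ((hw σ).mul (hw τ)).mul (((hf.d1.continuous.measurable.comp
          ((measurable_dot_left _).comp measurable_snd)).mul (hf.d1.continuous.measurable.comp
          ((measurable_dot_left _).comp measurable_snd))).const_mul _)).stronglyMeasurable.integral_prod_right'.measurable
    have hib := fun d : Dis (Nj j) (Nj j) =>
      oneMean_ibp hf (hpos j) hT (totalH f (scale (Nj j)) (xj j) d)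
    have i3 : Integrable (fun d : Dis (Nj j) (Nj j) =>
        twoMean (totalH f (scale (Nj j)) (xj j) d) f) (disLaw (Nj j) (Nj j) (μj j)) :=
      integrable_of_abs_le htm (K := A + T * A + A * A + A * Real.exp (2 * A) * tailT T) fun d => by
        have := abs_le.1 (hib d)
        have := abs_le.1 (abs_oneMean_le (f := f) (totalH f (scale (Nj j)) (xj j) d) hh1b)
        have := abs_le.1 (abs_oneMean_le (f := f) (totalH f (scale (Nj j)) (xj j) d) hQb)
        rw [abs_le]
        constructor <;> linarith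
    rw [← integral_add i1 i2, ← integral_sub (i1.add i2 : Integrable (fun d => _ + _) _) i3]
    exact abs_integral_le hib
  obtain ⟨ha, hb⟩ := abs_le.1 hR
  obtain ⟨hc, hd⟩ := abs_lt.1 hj
  rw [abs_le]
  constructor <;> linarith

end Vale.Agent.P157.Parisi.Site
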