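import Vale.Agent.P157.Parisi.Site.ExpMean
import Vale.Agent.P157.Parisi.Site.Kappa

/-!
A lower bound on the cavity value by moments of the truncated field and the spread of the exponent.
-/

noncomputable section

open MeasureTheory ProbabilityTheory Filter Topology Finset
open scoped BigOperators NNReal

namespace Vale.Agent.P157.Parisi.Site

variable {N L : ℕ} {f : ℝ → ℝ} {A T : ℝ}

/-- The law of the Gaussian coefficients of the cavity field. -/
abbrev zLaw : Measure (ℕ → ℝ) := Measure.infinitePi fun _ : ℕ => gaussianReal 0 1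

lemma log_sum_ge {ι : Type*} [Fintype ι] {w φ c B : ι → ℝ} {M : ℝ} (hw : ∀ i, 0 ≤ w i)
    (hsum : ∑ i, w i = 1) (hφ : ∀ i, 1 ≤ φ i ∧ φ i ≤ M) (hc : ∀ i, φ i ≤ c i) (κ : ℝ) :
    Real.log (∑ i, w i * φ i) + κ - M * ∑ i, w i * |B i - κ| ≤
      Real.log (∑ i, w i * (c i * Real.exp (B i))) := by
  set X := ∑ i, w i * φ i
  have hX : 1 ≤ X := hsum.symm.le.trans
    (Finset.sum_le_sum fun i _ => le_mul_of_one_le_right (hw i) (hφ i).1)
  have hX0 : 0 < X := zero_lt_one.trans_le hX
  set m := (∑ i, w i * φ i * B i) / X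
  have hm : κ - M * ∑ i, w i * |B i - κ| ≤ m := by
    have h0 : 0 ≤ M * ∑ i, w i * |B i - κ| := by
      rw [Finset.mul_sum]
      exact Finset.sum_nonneg fun i _ => mul_nonneg (zero_le_one.trans ((hφ i).1.trans (hφ i).2))
        (mul_nonneg (hw i) (abs_nonneg _))
    rw [le_div_iff₀ hX0, sub_mul]
    have h1 : -(M * ∑ i, w i * |B i - κ|) ≤ ∑ i, w i * φ i * (B i - κ) := by
      rw [Finset.mul_sum, ← Finset.sum_neg_distrib]
      refine Finset.sum_le_sum fun i _ => ?_
      have h2 := mul_le_mul_of_nonneg_left (hφ i).2 (mul_nonneg (hw i) (abs_nonneg (B i - κ)))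
      have h3 := mul_le_mul_of_nonneg_left (neg_abs_le (B i - κ))
        (mul_nonneg (hw i) (zero_le_one.trans (hφ i).1))
      linarith
    have h4 : ∑ i, w i * φ i * (B i - κ) = (∑ i, w i * φ i * B i) - κ * X := by
      simp only [X, Finset.mul_sum, ← Finset.sum_sub_distrib]
      exact Finset.sum_congr rfl fun i _ => by ring
    rw [h4] at h1
    nlinarith
  have hlow : X * Real.exp m ≤ ∑ i, w i * (c i * Real.exp (B i)) := by
    have h1 : ∀ i, Real.exp m * (1 - m) * (w i * φ i) + Real.exp m * (w i * φ i * B i) ≤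
        w i * (c i * Real.exp (B i)) := by
      intro i
      have h2 := mul_le_mul_of_nonneg_left (Real.add_one_le_exp (B i - m)) (Real.exp_pos m).le
      rw [← Real.exp_add, add_sub_cancel] at h2
      have h3 := mul_le_mul_of_nonneg_left h2 (mul_nonneg (hw i) (zero_le_one.trans (hφ i).1))
      have h4 := mul_le_mul_of_nonneg_left (mul_le_mul_of_nonneg_right (hc i) (Real.exp_pos (B i)).le)
        (hw i)
      linarith
    refine le_trans (le_of_eq ?_) (Finset.sum_le_sum fun i _ => h1 i)
    rw [Finset.sum_add_distrib, ← Finset.mul_sum, ← Finset.mul_sum,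
      show (∑ i, w i * φ i * B i) = m * X from (div_mul_cancel₀ _ hX0.ne').symm]
    ring
  refine le_trans ?_ (Real.log_le_log (mul_pos hX0 (Real.exp_pos m)) hlow)
  rw [Real.log_mul hX0.ne' (Real.exp_pos m).ne', Real.log_exp]
  linarith

lemma measurable_cavB (hf : Smooth f A) (T : ℝ) (σ : Cube N) :
    Measurable fun d : Dis N L => cavB f T d σ :=
  (measurable_count_sum (F := fun g => deriv (deriv f) (dot g (unitVec σ)) -
    clampT T (dot g (unitVec σ)) * deriv f (dot g (unitVec σ)))
    ((hf.d2.continuous.measurable.comp (measurable_dot_left _)).sub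
      (((measurable_clampT T).comp (measurable_dot_left _)).mul
        (hf.d1.continuous.measurable.comp (measurable_dot_left _))))).div_const _

lemma measurable_cavY (hf : Smooth f A) (σ : Cube N) :
    Measurable fun p : Dis N L × (ℕ → ℝ) => cavY f p.2 p.1 σ := by
  have h : Measurable fun q : ℕ × (((ℕ → Fin N → ℝ) × (PertIdx N L → ℝ)) × (ℕ → ℝ)) =>
      (∑ a ∈ Finset.range q.1, q.2.2 a * deriv f (dot (q.2.1.1 a) (unitVec σ))) / Real.sqrt N :=
    measurable_from_prod_countable_right fun m => (Finset.measurable_sum (Finset.range m) fun a _ =>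
      ((measurable_pi_apply a).comp measurable_snd).mul (hf.d1.continuous.measurable.comp
        ((measurable_dot_left _).comp ((measurable_pi_apply a).comp
          (measurable_fst.comp measurable_fst))))).div_const _
  exact h.comp ((measurable_fst.comp measurable_fst).prodMk
    ((measurable_snd.comp measurable_fst).prodMk measurable_snd))

lemma abs_cavB_le (hf : Smooth f A) (hT : 0 ≤ T) (hN : 0 < N) (d : Dis N L) (σ : Cube N) :
    |cavB f T d σ| ≤ (d.1 : ℝ) * (A + T * A) := by
  have hN' : (1 : ℝ) ≤ N := by exact_mod_cast hN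
  have h0 : 0 ≤ A + T * A := by
    have := (abs_nonneg _).trans (hf.b0 0)
    nlinarith
  rw [cavB, abs_div, abs_of_pos (show (0 : ℝ) < 2 * N by linarith)]
  refine (div_le_self (abs_nonneg _) (by linarith)).trans ?_
  refine ((Finset.abs_sum_le_sum_abs _ _).trans (Finset.sum_le_sum fun a _ =>
    (abs_sub _ _).trans (add_le_add (hf.b2 _) ?_))).trans_eq
      (by rw [Finset.sum_const, Finset.card_range, nsmul_eq_mul])
  rw [abs_mul]
  exact mul_le_mul (abs_clampT_le hT _) (hf.b1 _) (abs_nonneg _) hT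

lemma abs_cavY_le (hf : Smooth f A) (hN : 0 < N) (z : ℕ → ℝ) (d : Dis N L) (σ : Cube N) :
    |cavY f z d σ| ≤ A * ∑ a ∈ Finset.range d.1, |z a| := by
  have hs : (1 : ℝ) ≤ Real.sqrt N := Real.one_le_sqrt.2 (by exact_mod_cast hN)
  rw [cavY, abs_div, abs_of_nonneg (Real.sqrt_nonneg _)]
  refine (div_le_self (abs_nonneg _) hs).trans ?_
  rw [Finset.mul_sum]
  refine (Finset.abs_sum_le_sum_abs _ _).trans (Finset.sum_le_sum fun a _ => ?_)
  rw [abs_mul, mul_comm A]
  exact mul_le_mul_of_nonneg_left (hf.b1 _) (abs_nonneg _)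

lemma integrable_abs_coordinate (a : ℕ) : Integrable (fun z : ℕ → ℝ => |z a|) zLaw :=
  (measurePreserving_eval_infinitePi (fun _ : ℕ => gaussianReal 0 1) a).integrable_comp_of_integrable
    integrable_abs_id

lemma integral_abs_coordinate (a : ℕ) :
    ∫ z : ℕ → ℝ, |z a| ∂zLaw = ∫ u, |u| ∂gaussianReal 0 1 := by
  have h := measurePreserving_eval_infinitePi (fun _ : ℕ => gaussianReal 0 1) a
  conv_rhs => rw [← h.map_eq]
  rw [integral_map h.measurable.aemeasurable continuous_abs.aestronglyMeasurable]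

/-- The spread of the cavity exponent around `κ`. -/
def devB (f : ℝ → ℝ) (T s : ℝ) (x : Fin L → ℝ) (N : ℕ) (μ κ : ℝ) : ℝ :=
  ∫ d, ∑ σ : Cube N, gib (totalH f s x d) σ * |cavB f T d σ - κ| ∂disLaw N L μ

lemma integrable_count_fst (μ c : ℝ) :
    Integrable (fun d : Dis N L => (d.1 : ℝ) * c) (disLaw N L μ) :=
  (((integrable_count_pow μ.toNNReal 1).mul_const c).comp_fst _).congr
    (ae_of_all _ fun d => by simp)

lemma integrable_dev (hf : Smooth f A) (hT : 0 ≤ T) (hN : 0 < N) (s : ℝ) (x : Fin L → ℝ)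
    (μ κ : ℝ) : Integrable (fun d : Dis N L =>
      ∑ σ : Cube N, gib (totalH f s x d) σ * |cavB f T d σ - κ|) (disLaw N L μ) := by
  have hm : Measurable fun d : Dis N L =>
      ∑ σ : Cube N, gib (totalH f s x d) σ * |cavB f T d σ - κ| :=
    Finset.measurable_sum _ fun σ _ => ((measurable_totalH hf.continuous s x σ).exp.div
      (Finset.measurable_sum _ fun τ _ => (measurable_totalH hf.continuous s x τ).exp)).mul
        ((measurable_cavB hf T σ).sub_const κ).abs
  refine ((integrable_count_fst μ (A + T * A)).add (integrable_const |κ|)).mono'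
    hm.aestronglyMeasurable (ae_of_all _ fun d => ?_)
  rw [Real.norm_eq_abs, Pi.add_apply]
  refine (Finset.abs_sum_le_sum_abs _ _).trans ((Finset.sum_le_sum (g := fun σ =>
    gib (totalH f s x d) σ * ((d.1 : ℝ) * (A + T * A) + |κ|)) fun σ _ => ?_).trans_eq ?_)
  · rw [abs_mul, abs_abs, abs_of_nonneg (gib_nonneg _ _)]
    exact mul_le_mul_of_nonneg_left ((abs_sub _ _).trans
      (add_le_add (abs_cavB_le hf hT hN d σ) le_rfl)) (gib_nonneg _ _)
  · rw [← Finset.sum_mul, sum_gib, one_mul]

/-- The cavity value is at least a polynomial in the moments of a truncation. -/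
theorem cavVal_ge (hf : Smooth f A) (hT : 0 ≤ T) (hN : 0 < N) (s : ℝ) (x : Fin L → ℝ) (μ : ℝ)
    {φ : ℝ → ℝ} (hφc : Continuous φ) {M : ℝ} (hφ : ∀ y, 1 ≤ φ y ∧ φ y ≤ M)
    (hφcosh : ∀ y, φ y ≤ Real.cosh y) {P : Polynomial ℝ} {ε : ℝ}
    (hP : ∀ u ∈ Set.Icc (1 : ℝ) M, |P.eval u - Real.log u| ≤ ε) (κ : ℝ) :
    (∑ k ∈ Finset.range (P.natDegree + 1), P.coeff k * cutMom f s x N μ φ k) - ε + κ -
        M * devB f T s x N μ κ ≤ cavVal N f T s x μ := by
  set X : Dis N L × (ℕ → ℝ) → ℝ := fun p =>
    ∑ σ : Cube N, gib (totalH f s x p.1) σ * φ (cavY f p.2 p.1 σ)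
  set Lg : Dis N L × (ℕ → ℝ) → ℝ := fun p => Real.log (∑ σ : Cube N,
    gib (totalH f s x p.1) σ * (Real.cosh (cavY f p.2 p.1 σ) * Real.exp (cavB f T p.1 σ)))
  have hgm : ∀ σ : Cube N, Measurable fun p : Dis N L × (ℕ → ℝ) => gib (totalH f s x p.1) σ :=
    fun σ => ((measurable_totalH hf.continuous s x σ).comp measurable_fst).exp.div
      (Finset.measurable_sum _ fun τ _ =>
        ((measurable_totalH hf.continuous s x τ).comp measurable_fst).exp)
  have hXm : Measurable X := Finset.measurable_sum _ fun σ _ =>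
    (hgm σ).mul (hφc.measurable.comp (measurable_cavY hf σ))
  have hLm : Measurable Lg := (Finset.measurable_sum _ fun σ _ => (hgm σ).mul
    ((Real.continuous_cosh.measurable.comp (measurable_cavY hf σ)).mul
      ((measurable_cavB hf T σ).comp measurable_fst).exp)).log
  have hX : ∀ p, X p ∈ Set.Icc (1 : ℝ) M := fun p => by
    constructor
    · refine (sum_gib (totalH f s x p.1)).symm.le.trans (Finset.sum_le_sum fun σ _ => ?_)
      exact le_mul_of_one_le_right (gib_nonneg _ _) (hφ _).1
    · refine (Finset.sum_le_sum fun σ _ => mul_le_mul_of_nonneg_left (hφ _).2 (gib_nonneg _ _)).trans_eq ?_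
      rw [← Finset.sum_mul, sum_gib, one_mul]
  have hLb : ∀ p, |Lg p| ≤ (p.1.1 : ℝ) * (A + T * A) + A * ∑ a ∈ Finset.range p.1.1, |p.2 a| := by
    intro p
    set b := (p.1.1 : ℝ) * (A + T * A)
    set c := A * ∑ a ∈ Finset.range p.1.1, |p.2 a|
    have hc0 : 0 ≤ c :=
      mul_nonneg ((abs_nonneg _).trans (hf.b0 0)) (Finset.sum_nonneg fun a _ => abs_nonneg _)
    have hlo : Real.exp (-b) ≤ ∑ σ : Cube N, gib (totalH f s x p.1) σ *
        (Real.cosh (cavY f p.2 p.1 σ) * Real.exp (cavB f T p.1 σ)) := by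
      refine le_trans (le_of_eq ?_) (Finset.sum_le_sum (f := fun σ =>
        gib (totalH f s x p.1) σ * Real.exp (-b)) fun σ _ => mul_le_mul_of_nonneg_left ?_ (gib_nonneg _ _))
      · rw [← Finset.sum_mul, sum_gib, one_mul]
      · exact (Real.exp_le_exp.2 (abs_le.1 (abs_cavB_le hf hT hN p.1 σ)).1).trans
          (le_mul_of_one_le_left (Real.exp_pos _).le (Real.one_le_cosh _))
    have hhi : ∑ σ : Cube N, gib (totalH f s x p.1) σ *
        (Real.cosh (cavY f p.2 p.1 σ) * Real.exp (cavB f T p.1 σ)) ≤ Real.exp (c + b) := by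
      refine (Finset.sum_le_sum (g := fun σ => gib (totalH f s x p.1) σ * Real.exp (c + b))
        fun σ _ => mul_le_mul_of_nonneg_left ?_ (gib_nonneg _ _)).trans_eq ?_
      · rw [Real.exp_add]
        refine mul_le_mul ?_ (Real.exp_le_exp.2 (abs_le.1 (abs_cavB_le hf hT hN p.1 σ)).2)
          (Real.exp_pos _).le (Real.exp_pos _).le
        refine le_trans ?_ (Real.exp_le_exp.2 (abs_cavY_le hf hN p.2 p.1 σ))
        rw [← Real.cosh_abs, ← Real.cosh_add_sinh]
        exact le_add_of_nonneg_right (Real.sinh_nonneg_iff.2 (abs_nonneg _))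
      · rw [← Finset.sum_mul, sum_gib, one_mul]
    have hpos := (Real.exp_pos _).trans_le hlo
    have h1 := (Real.le_log_iff_exp_le hpos).2 hlo
    have h2 := (Real.log_le_iff_le_exp hpos).2 hhi
    exact abs_le.2 ⟨by simp only [Lg]; linarith, by simp only [Lg]; linarith⟩
  have hbd : ∀ d : Dis N L, Integrable (fun z : ℕ → ℝ =>
      (d.1 : ℝ) * (A + T * A) + A * ∑ a ∈ Finset.range d.1, |z a|) zLaw := fun d =>
    (integrable_const _).add
      ((integrable_finsetSum _ fun a _ => integrable_abs_coordinate a).const_mul A)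
  have hLz : ∀ d, Integrable (fun z => Lg (d, z)) zLaw := fun d =>
    (hbd d).mono' (hLm.comp (measurable_const.prodMk measurable_id)).aestronglyMeasurable
      (ae_of_all _ fun z => hLb (d, z))
  have hLd : Integrable (fun d => ∫ z, Lg (d, z) ∂zLaw) (disLaw N L μ) := by
    refine (integrable_count_fst μ (A + T * A + A * ∫ u, |u| ∂gaussianReal 0 1)).mono'
      (hLm.stronglyMeasurable.integral_prod_right' (ν := zLaw)).aestronglyMeasurable
      (ae_of_all _ fun d => (norm_integral_le_of_norm_le (hbd d) (ae_of_all _ fun z =>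
        hLb (d, z))).trans_eq ?_)
    rw [integral_add (integrable_const _)
      ((integrable_finsetSum _ fun a _ => integrable_abs_coordinate a).const_mul A),
      integral_const_mul A, integral_finsetSum _ fun a _ => integrable_abs_coordinate a]
    simp only [integral_abs_coordinate, Finset.sum_const, Finset.card_range, nsmul_eq_mul,
      integral_const, probReal_univ, one_smul]
    ring
  have hXb : ∀ (k : ℕ) p, |X p ^ k| ≤ M ^ k := fun k p => by
    rw [abs_pow, abs_of_nonneg (zero_le_one.trans (hX p).1)]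
    exact pow_le_pow_left₀ (zero_le_one.trans (hX p).1) (hX p).2 k
  have hXz : ∀ (k : ℕ) d, Integrable (fun z => P.coeff k * X (d, z) ^ k) zLaw := fun k d =>
    (integrable_of_abs_le ((hXm.comp (measurable_const.prodMk measurable_id)).pow_const k)
      fun z => hXb k (d, z)).const_mul _
  have hXd : ∀ k : ℕ, Integrable (fun d => P.coeff k * ∫ z, X (d, z) ^ k ∂zLaw) (disLaw N L μ) :=
    fun k => (integrable_of_abs_le
      ((hXm.pow_const k).stronglyMeasurable.integral_prod_right' (ν := zLaw)).measurable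
      fun d => abs_integral_le fun z => hXb k (d, z)).const_mul _
  set D : Dis N L → ℝ := fun d => ∑ σ : Cube N, gib (totalH f s x d) σ * |cavB f T d σ - κ|
  have hD : Integrable D (disLaw N L μ) := integrable_dev hf hT hN s x μ κ
  set Sd : Dis N L → ℝ := fun d =>
    ∑ k ∈ Finset.range (P.natDegree + 1), P.coeff k * ∫ z, X (d, z) ^ k ∂zLaw
  have hS : Integrable Sd (disLaw N L μ) := integrable_finsetSum _ fun k _ => hXd k
  have hpt : ∀ d, Sd d + ((κ - ε) - M * D d) ≤ ∫ z, Lg (d, z) ∂zLaw := by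
    intro d
    have hP' : ∀ z, (∑ k ∈ Finset.range (P.natDegree + 1), P.coeff k * X (d, z) ^ k) +
        ((κ - ε) - M * D d) ≤ Lg (d, z) := fun z => by
      have h1 := log_sum_ge (w := gib (totalH f s x d)) (φ := fun σ => φ (cavY f z d σ))
        (c := fun σ => Real.cosh (cavY f z d σ)) (B := fun σ => cavB f T d σ) (gib_nonneg _)
        (sum_gib _) (fun σ => hφ _) (fun σ => hφcosh _) κ
      have h2 := (abs_le.1 (hP _ (hX (d, z)))).2
      rw [Polynomial.eval_eq_sum_range] at h2
      simp only [X, D, Lg] at h2 ⊢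
      linarith
    have hi : Integrable (fun z => (∑ k ∈ Finset.range (P.natDegree + 1),
        P.coeff k * X (d, z) ^ k) + ((κ - ε) - M * D d)) zLaw :=
      (integrable_finsetSum _ fun k _ => hXz k d).add (integrable_const _)
    refine le_trans (le_of_eq ?_) (integral_mono hi (hLz d) hP')
    rw [integral_add (integrable_finsetSum _ fun k _ => hXz k d) (integrable_const _),
      integral_finsetSum _ fun k _ => hXz k d]
    simp only [Sd, integral_const_mul, integral_const, probReal_univ, one_smul]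
  have hrest : Integrable (fun d => (κ - ε) - M * D d) (disLaw N L μ) :=
    (integrable_const _).sub (hD.const_mul M)
  have key : ∫ d, (Sd d + ((κ - ε) - M * D d)) ∂disLaw N L μ ≤
      ∫ d, ∫ z, Lg (d, z) ∂zLaw ∂disLaw N L μ := integral_mono (hS.add hrest) hLd hpt
  rw [integral_add hS hrest, integral_sub (integrable_const _) (hD.const_mul M),
    integral_const_mul, integral_finsetSum _ fun k _ => hXd k] at key
  simp only [integral_const_mul, integral_const, probReal_univ, one_smul] at key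
  unfold devB cutMom
  change _ ≤ ∫ d, ∫ z, Lg (d, z) ∂zLaw ∂disLaw N L μ
  simp only [X, D] at key ⊢
  linarith

/-- Observable of the cavity exponent. -/
def expoO (f : ℝ → ℝ) (T : ℝ) : Obs 1 :=
  ⟨0, 0, fun z => deriv (deriv f) z - clampT T z * deriv f z, fun _ => 1⟩

lemma powMean_expo (f : ℝ → ℝ) (T s : ℝ) (x : Fin L → ℝ) (μ : ℝ) (k : ℕ) :
    powMean f s x N μ k (fun v => ∑ _i : Unit, (1 / 2 : ℝ) * (expoO f T).eval v) =
      ∫ d, ∑ σ : Cube N, gib (totalH f s x d) σ * cavB f T d σ ^ k ∂disLaw N L μ := by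
  refine integral_congr_ae (ae_of_all _ fun d => ?_)
  show rep 1 _ _ = ∑ σ : Cube N, gib (totalH f s x d) σ * cavB f T d σ ^ k
  rw [← rep_one (totalH f s x d) (fun σ => cavB f T d σ ^ k)]
  congr 1
  funext σ
  congr 1
  simp only [Finset.univ_unique, Finset.sum_singleton, Obs.eval, expoO, fld, mul_one, cavB,
    ← Finset.mul_sum]
  ring

variable {α C : ℝ} {Nj : ℕ → ℕ} {xj : ∀ j, Fin (Nj j) → ℝ} {μj : ℕ → ℝ} {ξ : ℕ → Path}

/-- The limiting mean of the cavity exponent. -/
def kappaOf (α : ℝ) (f : ℝ → ℝ) (T : ℝ) (ξ : Path) : ℝ :=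
  α / 2 * ξ.oneVal f (fun z => deriv (deriv f) z - clampT T z * deriv f z)

/-- The cavity exponent concentrates. -/
theorem eventually_devB (hcont : ContStmt) (h : Setup α A C f Nj xj μj ξ) (hT : 0 ≤ T)
    {η : ℝ} (hη : 0 < η) :
    ∀ᶠ j in atTop, devB f T (scale (Nj j)) (xj j) (Nj j) (μj j) (kappaOf α f T (ξ j)) ≤ η := by
  have hA0 : 0 ≤ A := (abs_nonneg _).trans (h.smooth.b0 0)
  have hgood : ∀ _i : Unit, (expoO f T).Good := fun _ =>
    ⟨h.smooth.d2.continuous.sub ((continuous_clampT T).mul h.smooth.d1.continuous), continuous_const,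
      A + T * A + 1, fun z => ⟨le_trans ((abs_sub _ _).trans (add_le_add (h.smooth.b2 z)
        ((abs_mul _ _).trans_le (mul_le_mul (abs_clampT_le hT z) (h.smooth.b1 z) (abs_nonneg _) hT))))
          (by linarith), by simp only [expoO, abs_one]; nlinarith [mul_nonneg hT hA0]⟩⟩
  set pm : ℕ → ℕ → ℝ := fun k j => powMean f (scale (Nj j)) (xj j) (Nj j) (μj j) k
    (fun v => ∑ _i : Unit, (1 / 2 : ℝ) * (expoO f T).eval v)
  have hlim : ∀ k, Tendsto (fun j => pm k j - kappaOf α f T (ξ j) ^ k) atTop (𝓝 0) := fun k => by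
    refine (tendsto_powMean hcont h.smooth h.large h.pos h.mu_nonneg h.mu_near h.approx
      (fun _ : Unit => (1 / 2 : ℝ)) (fun _ => expoO f T) hgood k).congr fun j => ?_
    congr 1
    rw [sum_shape_one]
    simp only [Finset.univ_unique, Finset.sum_singleton, Obs.val, expoO, mul_one, if_true, kappaOf]
    ring
  have hκ : ∀ᶠ j in atTop, |kappaOf α f T (ξ j)| ≤ (A + T * A) * (α + 1) + 1 := by
    filter_upwards [Metric.tendsto_nhds.1 (hlim 1) 1 one_pos,
      h.tendsto_ratio.eventually (gt_mem_nhds (lt_add_one α))] with j hj hr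
    rw [Real.dist_eq, sub_zero, pow_one] at hj
    have hN : (0 : ℝ) < Nj j := by exact_mod_cast h.pos j
    have hb : |pm 1 j| ≤ (A + T * A) * (α + 1) := by
      simp only [pm, powMean_expo, pow_one]
      rw [← Real.norm_eq_abs]
      refine (norm_integral_le_of_norm_le
        (g := fun d : Dis (Nj j) (Nj j) => (d.1 : ℝ) * ((A + T * A) / Nj j))
        (integrable_count_fst _ _) (ae_of_all _ fun d => ?_)).trans ?_
      · rw [Real.norm_eq_abs]
        refine (Finset.abs_sum_le_sum_abs _ _).trans ((Finset.sum_le_sum (g := fun σ =>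
          gib (totalH f (scale (Nj j)) (xj j) d) σ * ((d.1 : ℝ) * ((A + T * A) / Nj j)))
          fun σ _ => ?_).trans_eq ?_)
        · rw [abs_mul, abs_of_nonneg (gib_nonneg _ _)]
          refine mul_le_mul_of_nonneg_left ?_ (gib_nonneg _ _)
          rw [cavB, abs_div, abs_of_pos (show (0 : ℝ) < 2 * (Nj j : ℝ) by linarith), mul_div_assoc']
          refine div_le_div₀ (by positivity) ?_ hN (by linarith)
          refine ((Finset.abs_sum_le_sum_abs _ _).trans (Finset.sum_le_sum fun a _ =>
            (abs_sub _ _).trans (add_le_add (h.smooth.b2 _) ?_))).trans_eq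
              (by rw [Finset.sum_const, Finset.card_range, nsmul_eq_mul])
          rw [abs_mul]
          exact mul_le_mul (abs_clampT_le hT _) (h.smooth.b1 _) (abs_nonneg _) hT
        · rw [← Finset.sum_mul, sum_gib, one_mul]
      · rw [disLaw, integral_fun_fst (fun m : ℕ => (m : ℝ) * _), probReal_univ, one_smul,
          integral_mul_const, Vale.Agent.P168.Toolkit.integral_count,
          Real.coe_toNNReal _ (h.mu_nonneg j), ← mul_div_assoc, mul_comm, mul_div_assoc]
        exact mul_le_mul_of_nonneg_left hr.le (by positivity)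
    have := abs_lt.1 hj
    have := abs_le.1 hb
    rw [abs_le]
    constructor <;> linarith
  set K := (A + T * A) * (α + 1) + 1
  have h2 : ∀ᶠ j in atTop, pm 2 j - 2 * kappaOf α f T (ξ j) * pm 1 j +
      kappaOf α f T (ξ j) ^ 2 ≤ η ^ 2 / 4 := by
    have hK : 0 ≤ K := by have := h.alpha; positivity
    have ht := (((hlim 2).abs).add (((hlim 1).abs).const_mul (2 * K))).eventually
      (gt_mem_nhds (show |(0 : ℝ)| + 2 * K * |(0 : ℝ)| < η ^ 2 / 4 by rw [abs_zero, mul_zero, zero_add]; positivity))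
    filter_upwards [ht, hκ] with j hj hk
    simp only [pow_one] at hj
    refine le_trans ?_ hj.le
    have e := mul_le_mul_of_nonneg_right hk (abs_nonneg (pm 1 j - kappaOf α f T (ξ j)))
    rw [← abs_mul] at e
    have := neg_abs_le (kappaOf α f T (ξ j) * (pm 1 j - kappaOf α f T (ξ j)))
    have := le_abs_self (pm 2 j - kappaOf α f T (ξ j) ^ 2)
    nlinarith
  filter_upwards [h2] with j hj
  set κ := kappaOf α f T (ξ j)
  set s := scale (Nj j)
  have hi : ∀ k, Integrable (fun d : Dis (Nj j) (Nj j) =>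
      ∑ σ : Cube (Nj j), gib (totalH f s (xj j) d) σ * cavB f T d σ ^ k)
      (disLaw (Nj j) (Nj j) (μj j)) := fun k => by
    refine (((integrable_count_pow (μj j).toNNReal k).const_mul ((A + T * A) ^ k)).comp_fst _).mono'
      (Finset.measurable_sum _ fun σ _ => ((measurable_totalH h.smooth.continuous s (xj j) σ).exp.div
        (Finset.measurable_sum _ fun τ _ => (measurable_totalH h.smooth.continuous s (xj j) τ).exp)).mul
          ((measurable_cavB h.smooth T σ).pow_const k)).aestronglyMeasurable (ae_of_all _ fun d => ?_)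
    rw [Real.norm_eq_abs]
    refine (Finset.abs_sum_le_sum_abs _ _).trans ((Finset.sum_le_sum (g := fun σ =>
      gib (totalH f s (xj j) d) σ * ((A + T * A) ^ k * (d.1 : ℝ) ^ k)) fun σ _ => ?_).trans_eq ?_)
    · rw [abs_mul, abs_of_nonneg (gib_nonneg _ _), abs_pow, ← mul_pow, mul_comm (A + T * A)]
      exact mul_le_mul_of_nonneg_left
        (pow_le_pow_left₀ (abs_nonneg _) (abs_cavB_le h.smooth hT (h.pos j) d σ) k) (gib_nonneg _ _)
    · rw [← Finset.sum_mul, sum_gib, one_mul]
  have hle : ∀ d : Dis (Nj j) (Nj j),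
      (∑ σ : Cube (Nj j), gib (totalH f s (xj j) d) σ * |cavB f T d σ - κ|) ≤
        η / 2 + (2 / η) * ((∑ σ : Cube (Nj j), gib (totalH f s (xj j) d) σ * cavB f T d σ ^ 2) -
          2 * κ * (∑ σ : Cube (Nj j), gib (totalH f s (xj j) d) σ * cavB f T d σ ^ 1) + κ ^ 2) := by
    intro d
    have e : ∀ σ, gib (totalH f s (xj j) d) σ * |cavB f T d σ - κ| ≤
        η / 2 * gib (totalH f s (xj j) d) σ + 2 / η * (gib (totalH f s (xj j) d) σ * cavB f T d σ ^ 2) -
        2 / η * (2 * κ) * (gib (totalH f s (xj j) d) σ * cavB f T d σ ^ 1) +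
        2 / η * κ ^ 2 * gib (totalH f s (xj j) d) σ := fun σ => by
      have hb : |cavB f T d σ - κ| ≤ η / 2 + 2 / η * (cavB f T d σ - κ) ^ 2 := by
        rcases le_total |cavB f T d σ - κ| (η / 2) with hle | hle
        · exact hle.trans (le_add_of_nonneg_right (by positivity))
        · refine le_trans ?_ (le_add_of_nonneg_left (by positivity))
          rw [div_mul_eq_mul_div, le_div_iff₀ hη, ← sq_abs (cavB f T d σ - κ)]
          nlinarith [abs_nonneg (cavB f T d σ - κ)]
      refine (mul_le_mul_of_nonneg_left hb (gib_nonneg (totalH f s (xj j) d) σ)).trans_eq ?_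
      ring
    refine (Finset.sum_le_sum fun σ _ => e σ).trans_eq ?_
    simp only [Finset.sum_add_distrib, Finset.sum_sub_distrib, ← Finset.mul_sum, sum_gib]
    ring
  set I₁ : Dis (Nj j) (Nj j) → ℝ := fun d =>
    ∑ σ : Cube (Nj j), gib (totalH f s (xj j) d) σ * cavB f T d σ ^ 1
  set I₂ : Dis (Nj j) (Nj j) → ℝ := fun d =>
    ∑ σ : Cube (Nj j), gib (totalH f s (xj j) d) σ * cavB f T d σ ^ 2
  have hq : Integrable (fun d => η / 2 + (2 / η) * (I₂ d - 2 * κ * I₁ d + κ ^ 2))
      (disLaw (Nj j) (Nj j) (μj j)) :=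
    (integrable_const _).add ((((hi 2).sub ((hi 1).const_mul _)).add (integrable_const _)).const_mul _)
  refine (integral_mono (integrable_dev h.smooth hT (h.pos j) s (xj j) (μj j) κ) hq hle).trans ?_
  have e2 : ∫ d, (η / 2 + (2 / η) * (I₂ d - 2 * κ * I₁ d + κ ^ 2)) ∂disLaw (Nj j) (Nj j) (μj j) =
      η / 2 + 2 / η * (pm 2 j - 2 * κ * pm 1 j + κ ^ 2) := by
    have i1 : Integrable (fun d => I₂ d - 2 * κ * I₁ d) (disLaw (Nj j) (Nj j) (μj j)) :=
      (hi 2).sub ((hi 1).const_mul _)
    have i2 : Integrable (fun d => I₂ d - 2 * κ * I₁ d + κ ^ 2) (disLaw (Nj j) (Nj j) (μj j)) :=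
      i1.add (integrable_const _)
    rw [integral_add (integrable_const _) (i2.const_mul _), integral_const_mul,
      integral_add i1 (integrable_const _), integral_sub (hi 2) ((hi 1).const_mul _),
      integral_const_mul]
    simp only [pm, powMean_expo, integral_const, probReal_univ, one_smul, I₁, I₂, s]
  rw [e2]
  calc η / 2 + 2 / η * (pm 2 j - 2 * κ * pm 1 j + κ ^ 2)
      ≤ η / 2 + 2 / η * (η ^ 2 / 4) := by
        gcongr
    _ = η := by field_simp; ring

end Vale.Agent.P157.Parisi.Site
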