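import Vale.Agent.P157.Parisi.Site.PowMean
import Vale.Agent.P157.Parisi.Site.Casc

/-!
Moments of a cosine truncation of `cosh` of the cavity field converge to their values on the tree.
-/

noncomputable section

open MeasureTheory ProbabilityTheory Filter Topology Finset
open scoped BigOperators NNReal

namespace Vale.Agent.P157.Parisi.Site

open Vale.Agent.P168 (Shape shapeProb)
open Vale.Agent.P168.Cascade (Exps IsTree)

variable {N L n : ℕ} {f : ℝ → ℝ} {A : ℝ}

/-- The field covariance path. -/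
def rhoOf (α : ℝ) (f : ℝ → ℝ) (ξ : Path) (p : Fin (ξ.r + 1)) : ℝ := α * slope f ξ.m ξ.q p

/-- The variance not seen by the tree. -/
def deltaOf (α : ℝ) (f : ℝ → ℝ) (ξ : Path) : ℝ :=
  α * ξ.oneVal f (fun z => deriv f z * deriv f z) - rhoOf α f ξ (Fin.last ξ.r)

/-- The quadratic form of one pattern. -/
def quadC (a : Fin n → ℝ) (p : Fin n × Fin n) : ℝ := a p.1 * a p.2

/-- Its observables. -/
def quadO (f : ℝ → ℝ) (p : Fin n × Fin n) : Obs n := ⟨p.1, p.2, deriv f, deriv f⟩

lemma quad_eq (f : ℝ → ℝ) (a : Fin n → ℝ) (v : Fin n → ℝ) :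
    ∑ p, quadC a p * (quadO f p).eval v = (∑ l, a l * deriv f (v l)) ^ 2 := by
  rw [Fintype.sum_prod_type, pow_two, Finset.sum_mul_sum]
  exact Finset.sum_congr rfl fun l _ => Finset.sum_congr rfl fun l' _ => by
    simp only [quadC, quadO, Obs.eval]; ring

lemma quad_val (hslope : SlopeStmt) (hf : Smooth f A) (α : ℝ) (ξ : Path) {v : Shape ξ.r n}
    (hv : IsTree v) (a : Fin n → ℝ) :
    α * ∑ p, quadC a p * (quadO f p).val ξ f v =
      deltaOf α f ξ * (∑ l, a l ^ 2) + treeVar (rhoOf α f ξ) v a := by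
  have h : ∀ l l', α * (quadC a (l, l') * (quadO f (l, l')).val ξ f v) =
      (if l = l' then deltaOf α f ξ * (a l * a l') else 0) +
        a l * a l' * rhoOf α f ξ (v l l') := by
    intro l l'
    rcases eq_or_ne l l' with rfl | h
    · simp only [quadC, quadO, Obs.val, if_true, hv.diag, deltaOf, rhoOf]
      ring
    · simp only [quadC, quadO, Obs.val, if_neg h, rhoOf, ← ((hslope f A hf ξ).2 (v l l')).2.1]
      ring
  rw [Fintype.sum_prod_type, Finset.mul_sum, treeVar, Finset.mul_sum, ← Finset.sum_add_distrib]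
  refine Finset.sum_congr rfl fun l _ => ?_
  rw [Finset.mul_sum, Finset.sum_congr rfl fun l' _ => h l l', Finset.sum_add_distrib,
    Finset.sum_ite_eq, if_pos (Finset.mem_univ _), ← pow_two]

/-- The replica mean of the characteristic function of the cavity field. -/
def expMean (f : ℝ → ℝ) (s : ℝ) (x : Fin L → ℝ) (N : ℕ) (μ : ℝ) (a : Fin n → ℝ) : ℝ :=
  ∫ d, rep n (totalH f s x d) (fun σ : Fin n → Cube N => Real.exp (-((∑ b ∈ Finset.range d.1,
    ∑ p, quadC a p * (quadO f p).eval (fld (d.2.1 b) σ)) / N) / 2)) ∂disLaw N L μ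

/-- The size of the quadratic form. -/
def quadB (A : ℝ) (a : Fin n → ℝ) : ℝ := ((∑ l, |a l|) * A) ^ 2

lemma quad_mem (hf : Smooth f A) (a v : Fin n → ℝ) :
    0 ≤ ∑ p, quadC a p * (quadO f p).eval v ∧
      ∑ p, quadC a p * (quadO f p).eval v ≤ quadB A a := by
  rw [quad_eq]
  refine ⟨sq_nonneg _, sq_le_sq' ?_ ?_⟩ <;>
  · have : |∑ l, a l * deriv f (v l)| ≤ (∑ l, |a l|) * A := by
      refine (Finset.abs_sum_le_sum_abs _ _).trans ?_
      rw [Finset.sum_mul]
      exact Finset.sum_le_sum fun l _ => by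
        rw [abs_mul]; exact mul_le_mul_of_nonneg_left (hf.b1 _) (abs_nonneg _)
    linarith [abs_le.1 this]

lemma measurable_totalH (hf : Continuous f) (s : ℝ) (x : Fin L → ℝ) (σ : Cube N) :
    Measurable fun d : Dis N L => totalH f s x d σ := by
  simp only [totalH_eq]
  exact measurable_headOf_apply (Ψ := fun _ q => finH f s x q σ) fun m => measurable_finH hf σ

lemma measurable_count_sum {F : (Fin N → ℝ) → ℝ} (hF : Measurable F) :
    Measurable fun d : Dis N L => ∑ b ∈ Finset.range d.1, F (d.2.1 b) := by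
  refine measurable_from_prod_countable_right fun m => ?_
  exact Finset.measurable_sum (Finset.range m) fun b _ =>
    hF.comp ((measurable_pi_apply b).comp measurable_fst)

lemma measurable_quadSum (hf : Smooth f A) (a : Fin n → ℝ) (σ : Fin n → Cube N) :
    Measurable fun d : Dis N L =>
      (∑ b ∈ Finset.range d.1, ∑ p, quadC a p * (quadO f p).eval (fld (d.2.1 b) σ)) / (N : ℝ) :=
  (measurable_count_sum (F := fun g => ∑ p, quadC a p * (quadO f p).eval (fld g σ))
    (Finset.measurable_sum _ fun p _ => ((hf.d1.continuous.measurable.comp (measurable_dot_left _)).mul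
      (hf.d1.continuous.measurable.comp (measurable_dot_left _))).const_mul _)).div_const _

lemma integrable_powRep (hf : Smooth f A) (s : ℝ) (x : Fin L → ℝ) (μ : ℝ) (a : Fin n → ℝ) (i : ℕ) :
    Integrable (fun d : Dis N L => rep n (totalH f s x d) (fun σ : Fin n → Cube N =>
      ((∑ b ∈ Finset.range d.1, ∑ p, quadC a p * (quadO f p).eval (fld (d.2.1 b) σ)) / (N : ℝ)) ^ i))
      (disLaw N L μ) := by
  refine (((integrable_count_pow μ.toNNReal i).const_mul ((quadB A a / N) ^ i)).comp_fst _).mono'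
    (measurable_rep (measurable_totalH hf.continuous s x) fun σ =>
      (measurable_quadSum hf a σ).pow_const i).aestronglyMeasurable (ae_of_all _ fun d => ?_)
  rw [Real.norm_eq_abs]
  refine abs_rep_le _ fun σ => ?_
  rw [abs_pow, ← mul_pow]
  refine pow_le_pow_left₀ (abs_nonneg _) ?_ i
  rw [abs_div, Nat.abs_cast, div_mul_eq_mul_div]
  refine div_le_div_of_nonneg_right ?_ (Nat.cast_nonneg _)
  rw [abs_of_nonneg (Finset.sum_nonneg fun b _ => (quad_mem hf a _).1)]
  exact (Finset.sum_le_sum fun b _ => (quad_mem hf a _).2).trans_eq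
    (by rw [Finset.sum_const, Finset.card_range, nsmul_eq_mul, mul_comm])

lemma abs_rep_le_rep (E : Cube N → ℝ) (Φ : (Fin n → Cube N) → ℝ) :
    |rep n E Φ| ≤ rep n E fun σ => |Φ σ| :=
  (Finset.abs_sum_le_sum_abs _ _).trans_eq (Finset.sum_congr rfl fun σ _ => by
    rw [abs_mul, abs_of_nonneg (Finset.prod_nonneg fun l _ => gib_nonneg _ _)])

lemma abs_expMean_sub (hf : Smooth f A) (s : ℝ) (x : Fin L → ℝ) (μ : ℝ) (a : Fin n → ℝ) (K : ℕ) :
    |expMean f s x N μ a - ∑ i ∈ Finset.range K, (-(1 / 2)) ^ i / ((i.factorial : ℕ) : ℝ) *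
      powMean f s x N μ i (fun v => ∑ p, quadC a p * (quadO f p).eval v)| ≤
      (1 / 2) ^ K / ((K.factorial : ℕ) : ℝ) *
        powMean f s x N μ K (fun v => ∑ p, quadC a p * (quadO f p).eval v) := by
  set Q : Dis N L → (Fin n → Cube N) → ℝ := fun d σ =>
    (∑ b ∈ Finset.range d.1, ∑ p, quadC a p * (quadO f p).eval (fld (d.2.1 b) σ)) / (N : ℝ)
  have hQ : ∀ d σ, 0 ≤ Q d σ := fun d σ =>
    div_nonneg (Finset.sum_nonneg fun b _ => (quad_mem hf a _).1) (Nat.cast_nonneg _)
  have hiE : Integrable (fun d => rep n (totalH f s x d) fun σ => Real.exp (-Q d σ / 2))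
      (disLaw N L μ) :=
    integrable_of_abs_le (measurable_rep (measurable_totalH hf.continuous s x) fun σ =>
      ((measurable_quadSum hf a σ).neg.div_const 2).exp) (K := 1) fun d => abs_rep_le _ fun σ => by
        rw [abs_of_pos (Real.exp_pos _)]
        exact Real.exp_le_one_iff.2 (by linarith [hQ d σ])
  have hi := fun i => integrable_powRep (N := N) hf s x μ a i
  have e : ∀ i, (-(1 / 2)) ^ i / ((i.factorial : ℕ) : ℝ) *
      powMean f s x N μ i (fun v => ∑ p, quadC a p * (quadO f p).eval v) =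
      ∫ d, (-(1 / 2)) ^ i / ((i.factorial : ℕ) : ℝ) *
        rep n (totalH f s x d) (fun σ => Q d σ ^ i) ∂disLaw N L μ := fun i => by
    rw [integral_const_mul]; rfl
  rw [Finset.sum_congr rfl fun i _ => e i, ← integral_finsetSum _ fun i _ => (hi i).const_mul _]
  unfold expMean
  rw [← integral_sub hiE (integrable_finsetSum _ fun i _ => (hi i).const_mul _), powMean,
    ← integral_const_mul, ← Real.norm_eq_abs]
  refine norm_integral_le_of_norm_le ((hi K).const_mul _) (ae_of_all _ fun d => ?_)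
  rw [Real.norm_eq_abs]
  simp only [← rep_const_mul, ← rep_sum, ← rep_sub]
  refine (abs_rep_le_rep _ _).trans (rep_mono _ fun σ => ?_)
  have h := abs_exp_neg_sub_le K (div_nonneg (hQ d σ) two_pos.le)
  have e1 : expPart K (Q d σ / 2) =
      ∑ i ∈ Finset.range K, (-(1 / 2)) ^ i / ((i.factorial : ℕ) : ℝ) * Q d σ ^ i :=
    Finset.sum_congr rfl fun i _ => by
      rw [show -(Q d σ / 2) = (-(1 / 2 : ℝ)) * Q d σ by ring, mul_pow]
      ring
  have e2 : (Q d σ / 2) ^ K / ((K.factorial : ℕ) : ℝ) =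
      (1 / 2) ^ K / ((K.factorial : ℕ) : ℝ) * Q d σ ^ K := by
    rw [show Q d σ / 2 = (1 / 2 : ℝ) * Q d σ by ring, mul_pow]
    ring
  rw [e1, e2, ← neg_div] at h
  exact h

/-- The standing hypotheses of the module. -/
structure Setup (α A C : ℝ) (f : ℝ → ℝ) (Nj : ℕ → ℕ) (xj : ∀ j, Fin (Nj j) → ℝ) (μj : ℕ → ℝ)
    (ξ : ℕ → Path) : Prop where
  alpha : 0 < α
  smooth : Smooth f A
  large : Tendsto Nj atTop atTop
  pos : ∀ j, 0 < Nj j
  mu_nonneg : ∀ j, 0 ≤ μj j
  mu_near : ∀ j, |μj j - α * Nj j| ≤ C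
  approx : Approx Nj (fun j => sysState (Nj j) f (scale (Nj j)) (xj j) (μj j)) ξ

variable {α C : ℝ} {Nj : ℕ → ℕ} {xj : ∀ j, Fin (Nj j) → ℝ} {μj : ℕ → ℝ} {ξ : ℕ → Path}

lemma Setup.tendsto_ratio (h : Setup α A C f Nj xj μj ξ) :
    Tendsto (fun j => μj j / (Nj j : ℝ)) atTop (𝓝 α) := by
  rw [tendsto_iff_norm_sub_tendsto_zero]
  refine squeeze_zero (fun j => norm_nonneg _) (fun j => ?_)
    ((tendsto_natCast_atTop_atTop.comp h.large).const_div_atTop C)
  have : (0 : ℝ) < Nj j := by exact_mod_cast h.pos j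
  rw [Real.norm_eq_abs, show μj j / (Nj j : ℝ) - α = (μj j - α * Nj j) / Nj j by field_simp,
    abs_div, abs_of_pos this]
  exact div_le_div_of_nonneg_right (h.mu_near j) this.le

lemma slope_facts (hslope : SlopeStmt) (hf : Smooth f A) (hα : 0 ≤ α) (ξ : Path) :
    Monotone (rhoOf α f ξ) ∧ 0 ≤ rhoOf α f ξ 0 ∧ 0 ≤ deltaOf α f ξ ∧
      rhoOf α f ξ (Fin.last ξ.r) + deltaOf α f ξ ≤ α * A ^ 2 := by
  obtain ⟨hm, h⟩ := hslope f A hf ξ
  refine ⟨fun p q hpq => mul_le_mul_of_nonneg_left (hm hpq) hα, mul_nonneg hα (h 0).1, ?_, ?_⟩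
  · exact sub_nonneg.2 (mul_le_mul_of_nonneg_left (h _).2.2.1 hα)
  · rw [deltaOf, add_sub_cancel]
    exact mul_le_mul_of_nonneg_left (h (Fin.last ξ.r)).2.2.2 hα

/-- The value of `expMean` on the tree. -/
def expTree (α : ℝ) (f : ℝ → ℝ) (ξ : Path) (a : Fin n → ℝ) : ℝ :=
  ∑ v : Shape ξ.r n, shapeProb ξ.m n v *
    Real.exp (-(deltaOf α f ξ * (∑ l, a l ^ 2) + treeVar (rhoOf α f ξ) v a) / 2)

/-- The characteristic function of the cavity field converges to its value on the tree. -/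
theorem tendsto_expMean (hcont : ContStmt) (hslope : SlopeStmt) (h : Setup α A C f Nj xj μj ξ)
    (a : Fin n → ℝ) :
    Tendsto (fun j => expMean f (scale (Nj j)) (xj j) (Nj j) (μj j) a - expTree α f (ξ j) a)
      atTop (𝓝 0) := by
  set G : (Fin n → ℝ) → ℝ := fun v => ∑ p, quadC a p * (quadO f p).eval v
  set pm : ℕ → ℕ → ℝ := fun i j => powMean f (scale (Nj j)) (xj j) (Nj j) (μj j) i G
  set u : (j : ℕ) → Shape (ξ j).r n → ℝ := fun j v =>
    α * ∑ p, quadC a p * (quadO f p).val (ξ j) f v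
  set tm : ℕ → ℕ → ℝ := fun i j => ∑ v, shapeProb (ξ j).m n v * u j v ^ i
  have ho : ∀ p : Fin n × Fin n, (quadO f p).Good := fun p =>
    ⟨h.smooth.d1.continuous, h.smooth.d1.continuous, A, fun z => ⟨h.smooth.b1 z, h.smooth.b1 z⟩⟩
  have hlim : ∀ i, Tendsto (fun j => pm i j - tm i j) atTop (𝓝 0) := fun i =>
    tendsto_powMean hcont h.smooth h.large h.pos h.mu_nonneg h.mu_near h.approx
      (quadC a) (quadO f) ho i
  set R : ℝ := α * quadB A a + 1
  have hbd : ∀ K, ∀ᶠ j in atTop, pm K j ≤ R ^ K + 1 ∧ tm K j ≤ R ^ K + 2 := by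
    intro K
    have hm := (tendsto_scaled_moment h.large h.mu_nonneg h.tendsto_ratio K).const_mul
      (quadB A a ^ K)
    have hle : quadB A a ^ K * α ^ K < R ^ K + 1 := by
      rw [← mul_pow, mul_comm (quadB A a)]
      have hq : 0 ≤ α * quadB A a := mul_nonneg h.alpha.le (sq_nonneg _)
      have := pow_le_pow_left₀ hq (show α * quadB A a ≤ R by simp [R]) K
      linarith
    filter_upwards [hm.eventually (gt_mem_nhds hle), Metric.tendsto_nhds.1 (hlim K) 1 one_pos]
      with j hj hd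
    have hp : pm K j ≤ R ^ K + 1 := by
      refine le_trans ?_ hj.le
      rw [← mul_div_assoc, ← integral_const_mul, div_eq_inv_mul, ← integral_const_mul]
      set Bd : ℕ → ℝ := fun m => ((Nj j : ℝ) ^ K)⁻¹ * (quadB A a ^ K * (m : ℝ) ^ K) with hBd
      have hiB : Integrable Bd (poissonMeasure (μj j).toNNReal) :=
        ((integrable_count_pow _ K).const_mul _).const_mul _
      refine le_trans (integral_mono (integrable_powRep h.smooth _ _ _ a K)
        (hiB.comp_fst _) fun d => ?_) (le_of_eq ?_)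
      · refine (rep_mono _ fun σ => ?_).trans (rep_const _ _).le
        simp only [hBd]
        rw [div_pow, div_eq_inv_mul, ← mul_pow (quadB A a)]
        refine mul_le_mul_of_nonneg_left (pow_le_pow_left₀
          (Finset.sum_nonneg fun b _ => (quad_mem h.smooth a _).1) ?_ K) (by positivity)
        exact (Finset.sum_le_sum fun b _ => (quad_mem h.smooth a _).2).trans_eq
          (by rw [Finset.sum_const, Finset.card_range, nsmul_eq_mul, mul_comm])
      · rw [disLaw, integral_fun_fst, probReal_univ, one_smul]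
    rw [Real.dist_eq, sub_zero] at hd
    exact ⟨hp, by linarith [(abs_lt.1 hd).1]⟩
  rw [Metric.tendsto_nhds]
  intro ε hε
  have hR : 0 ≤ R := by
    have := mul_nonneg h.alpha.le (sq_nonneg ((∑ l, |a l|) * A))
    simp only [R, quadB]
    linarith
  obtain ⟨K, hK⟩ := ((((FloorSemiring.tendsto_pow_div_factorial_atTop (R / 2)).const_mul 2).add
    ((FloorSemiring.tendsto_pow_div_factorial_atTop (1 / 2 : ℝ)).const_mul 3)).eventually
      (gt_mem_nhds (show 2 * (0 : ℝ) + 3 * 0 < ε / 2 by linarith))).exists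
  have hsum := tendsto_finsetSum (Finset.range K) fun i _ =>
    (hlim i).const_mul ((-(1 / 2 : ℝ)) ^ i / ((i.factorial : ℕ) : ℝ))
  simp only [mul_zero, Finset.sum_const_zero] at hsum
  filter_upwards [hbd K, Metric.tendsto_nhds.1 hsum (ε / 2) (by linarith)] with j ⟨hp, ht⟩ hs
  rw [Real.dist_eq, sub_zero] at hs ⊢
  have h1 := abs_expMean_sub h.smooth (scale (Nj j)) (xj j) (μj j) a K (N := Nj j)
  obtain ⟨hρ, hρ0, hδ, -⟩ := slope_facts hslope h.smooth h.alpha.le (ξ j)
  have hexps : Exps (ξ j).m := ⟨(ξ j).isPath.pos, (ξ j).isPath.lt_one, (ξ j).isPath.strictMono⟩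
  have h2 : |expTree α f (ξ j) a - ∑ i ∈ Finset.range K,
      (-(1 / 2)) ^ i / ((i.factorial : ℕ) : ℝ) * tm i j| ≤
      (1 / 2) ^ K / ((K.factorial : ℕ) : ℝ) * tm K j := by
    have e : ∑ i ∈ Finset.range K, (-(1 / 2)) ^ i / ((i.factorial : ℕ) : ℝ) * tm i j =
        ∑ v, shapeProb (ξ j).m n v * expPart K (u j v / 2) := by
      simp only [tm, expPart, Finset.mul_sum]
      rw [Finset.sum_comm]
      refine Finset.sum_congr rfl fun v _ => Finset.sum_congr rfl fun i _ => ?_
      rw [show -(u j v / 2) = (-(1 / 2 : ℝ)) * u j v by ring, mul_pow]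
      ring
    rw [e, expTree, ← Finset.sum_sub_distrib]
    refine ((Finset.abs_sum_le_sum_abs _ _).trans (Finset.sum_le_sum (g := fun v =>
      (1 / 2 : ℝ) ^ K / ((K.factorial : ℕ) : ℝ) * (shapeProb (ξ j).m n v * u j v ^ K))
      fun v _ => ?_)).trans_eq (Finset.mul_sum _ _ _).symm
    rcases eq_or_ne (shapeProb (ξ j).m n v) 0 with h0 | h0
    · simp [h0]
    have hv := Vale.Agent.P168.Cascade.isTree_of_prob h0
    have eu : deltaOf α f (ξ j) * (∑ l, a l ^ 2) + treeVar (rhoOf α f (ξ j)) v a = u j v :=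
      (quad_val hslope h.smooth α (ξ j) hv a).symm
    have hu : 0 ≤ u j v := by
      rw [← eu]
      exact add_nonneg (mul_nonneg hδ (Finset.sum_nonneg fun l _ => sq_nonneg _))
        (treeVar_nonneg hv hρ hρ0 a)
    rw [← mul_sub, eu, abs_mul, abs_of_nonneg (shapeProb_nonneg hexps v),
      show -u j v / 2 = -(u j v / 2) by ring]
    refine (mul_le_mul_of_nonneg_left (abs_exp_neg_sub_le K (div_nonneg hu two_pos.le))
      (shapeProb_nonneg hexps v)).trans_eq ?_
    simp only [div_pow, one_pow]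
    ring
  have hfac : 0 ≤ (1 / 2 : ℝ) ^ K / ((K.factorial : ℕ) : ℝ) := by positivity
  have eK : (1 / 2 : ℝ) ^ K / ((K.factorial : ℕ) : ℝ) * R ^ K =
      (R / 2) ^ K / ((K.factorial : ℕ) : ℝ) := by
    simp only [div_pow, one_pow]
    ring
  have h3 := mul_le_mul_of_nonneg_left hp hfac
  have h4 := mul_le_mul_of_nonneg_left ht hfac
  simp only [mul_sub, Finset.sum_sub_distrib] at hs
  rw [mul_add] at h3 h4
  rw [abs_le] at h1 h2
  rw [abs_lt] at hs ⊢
  change (1 / 2 : ℝ) ^ K / ((K.factorial : ℕ) : ℝ) * powMean f (scale (Nj j)) (xj j) (Nj j) (μj j) K G ≤ _ at h3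
  simp only [pm] at hs
  constructor <;> linarith [h1.1, h1.2, h2.1, h2.2]

lemma integrable_cos_field (m : ℕ) (u : ℕ → ℝ) :
    Integrable (fun z : ℕ → ℝ => Real.cos (∑ b ∈ Finset.range m, z b * u b))
      (Measure.infinitePi fun _ : ℕ => gaussianReal 0 1) :=
  Integrable.of_bound (Real.continuous_cos.measurable.comp (Finset.measurable_sum _ fun b _ =>
    (measurable_pi_apply b).mul_const _)).aestronglyMeasurable 1
    (ae_of_all _ fun z => Real.abs_cos_le_one _)

/-- A moment of a function of the cavity field. -/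
def cutMom (f : ℝ → ℝ) (s : ℝ) (x : Fin L → ℝ) (N : ℕ) (μ : ℝ) (φ : ℝ → ℝ) (k : ℕ) : ℝ :=
  ∫ d, ∫ z, (∑ σ : Cube N, gib (totalH f s x d) σ * φ (cavY f z d σ)) ^ k
    ∂(Measure.infinitePi fun _ : ℕ => gaussianReal 0 1) ∂disLaw N L μ

lemma cutMom_eq (hf : Smooth f A) (s : ℝ) (x : Fin L → ℝ) (μ : ℝ) {φ : ℝ → ℝ} {D : ℕ}
    {c t : Fin D → ℝ} (hφ : ∀ y, φ y = ∑ i, c i * Real.cos (t i * y)) (k : ℕ) :
    cutMom f s x N μ φ k = ∑ i : Fin k → Fin D, (∏ l, c (i l)) / 2 ^ k *
      ∑ sg : Fin k → Bool, expMean f s x N μ fun l => sgn (sg l) * t (i l) := by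
  have hlin : ∀ (d : Dis N L) (σ : Fin k → Cube N) (a : Fin k → ℝ) (z : ℕ → ℝ),
      ∑ l, a l * cavY f z d (σ l) = ∑ b ∈ Finset.range d.1,
        z b * ((∑ l, a l * deriv f (fld (d.2.1 b) σ l)) / Real.sqrt N) := fun d σ a z => by
    simp only [cavY, fld, Finset.sum_div, mul_div_assoc, Finset.mul_sum]
    rw [Finset.sum_comm]
    refine Finset.sum_congr rfl fun b _ => Finset.sum_congr rfl fun l _ => by ring
  have hq : ∀ (d : Dis N L) (σ : Fin k → Cube N) (a : Fin k → ℝ),
      ∑ b ∈ Finset.range d.1, ((∑ l, a l * deriv f (fld (d.2.1 b) σ l)) / Real.sqrt N) ^ 2 =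
        (∑ b ∈ Finset.range d.1, ∑ p, quadC a p * (quadO f p).eval (fld (d.2.1 b) σ)) / N :=
    fun d σ a => by
      simp only [quad_eq, div_pow, Real.sq_sqrt (Nat.cast_nonneg N)]
      exact (Finset.sum_div _ _ _).symm
  have hin : ∀ d : Dis N L, ∫ z, (∑ σ : Cube N, gib (totalH f s x d) σ * φ (cavY f z d σ)) ^ k
      ∂(Measure.infinitePi fun _ : ℕ => gaussianReal 0 1) =
      ∑ i : Fin k → Fin D, (∏ l, c (i l)) / 2 ^ k * ∑ sg : Fin k → Bool,
        rep k (totalH f s x d) (fun σ => Real.exp (-((∑ b ∈ Finset.range d.1,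
          ∑ p, quadC (fun l => sgn (sg l) * t (i l)) p * (quadO f p).eval (fld (d.2.1 b) σ)) / N)
            / 2)) := by
    intro d
    have e : ∀ z : ℕ → ℝ, (∑ σ : Cube N, gib (totalH f s x d) σ * φ (cavY f z d σ)) ^ k =
        ∑ σ : Fin k → Cube N, (∏ l, gib (totalH f s x d) (σ l)) *
          ∑ i : Fin k → Fin D, (∏ l, c (i l)) / 2 ^ k * ∑ sg : Fin k → Bool,
            Real.cos (∑ b ∈ Finset.range d.1, z b *
              ((∑ l, sgn (sg l) * t (i l) * deriv f (fld (d.2.1 b) σ l)) / Real.sqrt N)) := by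
      intro z
      simp only [← hlin, ← prod_trig_eq hφ, Fintype.sum_pow, Finset.prod_mul_distrib]
    simp only [e]
    rw [integral_finsetSum _ fun σ _ => (integrable_finsetSum _ fun i _ =>
      (integrable_finsetSum _ fun sg _ => integrable_cos_field _ _).const_mul _).const_mul _]
    simp only [← rep_sum, ← rep_const_mul]
    refine Finset.sum_congr rfl fun σ _ => ?_
    rw [integral_const_mul, integral_finsetSum _ fun i _ =>
      (integrable_finsetSum _ fun sg _ => integrable_cos_field _ _).const_mul _]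
    congr 1
    refine Finset.sum_congr rfl fun i _ => ?_
    rw [integral_const_mul, integral_finsetSum _ fun sg _ => integrable_cos_field _ _]
    simp only [integral_cos_infinite, hq, neg_div]
  have hi : ∀ a : Fin k → ℝ, Integrable (fun d : Dis N L => rep k (totalH f s x d)
      (fun σ : Fin k → Cube N => Real.exp (-((∑ b ∈ Finset.range d.1,
        ∑ p, quadC a p * (quadO f p).eval (fld (d.2.1 b) σ)) / N) / 2))) (disLaw N L μ) := fun a =>
    integrable_of_abs_le (measurable_rep (measurable_totalH hf.continuous s x) fun σ =>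
      ((measurable_quadSum hf a σ).neg.div_const 2).exp) (K := 1) fun d => abs_rep_le _ fun σ => by
        rw [abs_of_pos (Real.exp_pos _)]
        exact Real.exp_le_one_iff.2 (by
          have : (0 : ℝ) ≤ (∑ b ∈ Finset.range d.1,
              ∑ p, quadC a p * (quadO f p).eval (fld (d.2.1 b) σ)) / N :=
            div_nonneg (Finset.sum_nonneg fun b _ => (quad_mem hf a _).1) (Nat.cast_nonneg _)
          linarith)
  unfold cutMom
  simp only [hin]
  rw [integral_finsetSum _ fun i _ => (integrable_finsetSum _ fun sg _ => hi _).const_mul _]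
  refine Finset.sum_congr rfl fun i _ => ?_
  rw [integral_const_mul, integral_finsetSum _ fun sg _ => hi _]
  rfl

/-- The moments of a cosine sum of the cavity field converge to the tree moments. -/
theorem tendsto_cutMom (hcont : ContStmt) (hslope : SlopeStmt) (h : Setup α A C f Nj xj μj ξ)
    {φ : ℝ → ℝ} {D : ℕ} {c t : Fin D → ℝ} (hφ : ∀ y, φ y = ∑ i, c i * Real.cos (t i * y))
    {M : ℝ} (hM : ∀ y, |φ y| ≤ M) (k : ℕ) :
    Tendsto (fun j => cutMom f (scale (Nj j)) (xj j) (Nj j) (μj j) φ k -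
      fieldMoment (ξ j).m (rhoOf α f (ξ j)) (damp (deltaOf α f (ξ j)) c t) k) atTop (𝓝 0) := by
  have hsum := tendsto_finsetSum (Finset.univ : Finset (Fin k → Fin D)) fun i _ =>
    (tendsto_finsetSum (Finset.univ : Finset (Fin k → Bool)) fun sg _ =>
      tendsto_expMean hcont hslope h fun l => sgn (sg l) * t (i l)).const_mul
        ((∏ l, c (i l)) / 2 ^ k)
  simp only [Finset.sum_const_zero, mul_zero] at hsum
  refine hsum.congr fun j => ?_
  obtain ⟨hρ, hρ0, hδ, -⟩ := slope_facts hslope h.smooth h.alpha.le (ξ j)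
  have hMd : ∀ y, |damp (deltaOf α f (ξ j)) c t y| ≤ M := fun y => by
    rw [damp_eq hφ hδ, spread]
    exact abs_integral_le fun g => hM _
  rw [cutMom_eq h.smooth _ _ _ hφ, fieldMoment_eq (ξ j).m hρ hρ0 _ c t hMd]
  simp only [Finset.sum_sub_distrib, mul_sub]
  congr 1
  simp only [expTree, Finset.mul_sum]
  conv_rhs => rw [Finset.sum_comm]
  refine Finset.sum_congr rfl fun i _ => ?_
  conv_rhs => rw [Finset.sum_comm]
  exact Finset.sum_congr rfl fun sg _ => Finset.sum_congr rfl fun v _ => by ring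

end Vale.Agent.P157.Parisi.Site
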