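import Vale.Agent.P168.Limit.ToolkitPoisson

/-!
Poisson counts: factorial moments, scaled moments, and tuples without repetition.
-/

noncomputable section

open MeasureTheory ProbabilityTheory Filter Topology Finset
open scoped BigOperators NNReal

namespace Vale.Agent.P157.Parisi.Site

open Vale.Agent.P168

lemma integrable_count_pow (r : ℝ≥0) :
    ∀ k : ℕ, Integrable (fun n : ℕ => (n : ℝ) ^ k) (poissonMeasure r)
  | 0 => by simp
  | k + 1 => by
    have h : Integrable (fun n : ℕ => ((n + 1 : ℕ) : ℝ) ^ k) (poissonMeasure r) := by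
      refine (((integrable_count_pow r k).add (integrable_const 1)).const_mul ((2 : ℝ) ^ k)).mono'
        Measurable.of_discrete.aestronglyMeasurable (ae_of_all _ fun n => ?_)
      rw [Real.norm_eq_abs, abs_of_nonneg (by positivity)]
      push_cast
      show ((n : ℝ) + 1) ^ k ≤ (2 : ℝ) ^ k * ((n : ℝ) ^ k + 1)
      rcases Nat.eq_zero_or_pos n with rfl | hn
      · have : (1 : ℝ) ≤ 2 ^ k := one_le_pow₀ (by norm_num)
        simp only [Nat.cast_zero, zero_add, one_pow]
        nlinarith [pow_nonneg (le_refl (0 : ℝ)) k]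
      · have : (1 : ℝ) ≤ n := by exact_mod_cast hn
        calc ((n : ℝ) + 1) ^ k ≤ (2 * (n : ℝ)) ^ k := by gcongr; linarith
          _ ≤ _ := by rw [mul_pow]; gcongr; linarith
    simpa [pow_succ'] using Toolkit.integrable_count_mul (f := fun n : ℕ => (n : ℝ) ^ k) h

lemma integrable_of_pow_bound (r : ℝ≥0) {h : ℕ → ℝ} {B : ℝ} (k : ℕ)
    (hb : ∀ n, |h n| ≤ B * (n : ℝ) ^ k) : Integrable h (poissonMeasure r) :=
  ((integrable_count_pow r k).const_mul B).mono' Measurable.of_discrete.aestronglyMeasurable
    (ae_of_all _ hb)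

lemma integral_count_pow_succ (r : ℝ≥0) (k : ℕ) :
    ∫ n, (n : ℝ) ^ (k + 1) ∂poissonMeasure r =
      r * ∑ i ∈ Finset.range (k + 1), (k.choose i : ℝ) * ∫ n, (n : ℝ) ^ i ∂poissonMeasure r := by
  have h : Integrable (fun n : ℕ => ((n + 1 : ℕ) : ℝ) ^ k) (poissonMeasure r) := by
    simp only [Nat.cast_add_one, add_pow, one_pow, mul_one]
    exact integrable_finsetSum _ fun i _ => (integrable_count_pow r i).mul_const _
  simp only [pow_succ']
  rw [Toolkit.integral_count_mul (f := fun n : ℕ => (n : ℝ) ^ k) h]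
  simp only [Nat.cast_add_one, add_pow, one_pow, mul_one]
  rw [integral_finsetSum _ fun i _ => (integrable_count_pow r i).mul_const _]
  congr 1
  exact Finset.sum_congr rfl fun i _ => by rw [integral_mul_const, mul_comm]

/-- Scaled moments of Poisson counts with parameters asymptotic to `α N`. -/
lemma tendsto_scaled_moment {ι : Type*} {l : Filter ι} {N : ι → ℕ} {μ : ι → ℝ} {α : ℝ}
    (hN : Tendsto N l atTop) (hμ : ∀ j, 0 ≤ μ j)
    (hlim : Tendsto (fun j => μ j / (N j : ℝ)) l (𝓝 α)) (k : ℕ) :
    Tendsto (fun j => (∫ n, (n : ℝ) ^ k ∂poissonMeasure (μ j).toNNReal) / (N j : ℝ) ^ k) l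
      (𝓝 (α ^ k)) := by
  induction k using Nat.strong_induction_on with
  | _ k ih =>
    cases k with
    | zero => simpa using tendsto_const_nhds
    | succ k =>
      have hinv : Tendsto (fun j => ((N j : ℝ))⁻¹) l (𝓝 0) :=
        tendsto_inv_atTop_zero.comp (tendsto_natCast_atTop_atTop.comp hN)
      have hi : ∀ i ∈ Finset.range (k + 1), Tendsto (fun j => (k.choose i : ℝ) *
          ((∫ n, (n : ℝ) ^ i ∂poissonMeasure (μ j).toNNReal) / (N j : ℝ) ^ i) *
            ((N j : ℝ))⁻¹ ^ (k - i)) l (𝓝 (if i = k then α ^ k else 0)) := by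
        intro i hik
        have h := ((ih i (Finset.mem_range.1 hik)).const_mul (k.choose i : ℝ)).mul
          (hinv.pow (k - i))
        rcases eq_or_ne i k with rfl | hne
        · simpa using h
        · have hpos : k - i ≠ 0 := by have := Finset.mem_range.1 hik; omega
          simpa [zero_pow hpos, hne] using h
      have h := hlim.mul (tendsto_finsetSum _ hi)
      rw [Finset.sum_ite_eq', if_pos (Finset.self_mem_range_succ k), ← pow_succ'] at h
      refine h.congr fun j => ?_
      rw [integral_count_pow_succ, Real.coe_toNNReal _ (hμ j), Finset.mul_sum, Finset.mul_sum,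
        Finset.sum_div]
      refine Finset.sum_congr rfl fun i hik => ?_
      have e : ((N j : ℝ)) ^ (k + 1) = (N j : ℝ) * (N j : ℝ) ^ i * (N j : ℝ) ^ (k - i) := by
        rw [mul_assoc, ← pow_add, ← pow_succ']
        congr 1
        have := Finset.mem_range.1 hik
        omega
      rw [e, inv_pow]
      simp only [div_eq_mul_inv, mul_inv]
      ring

/-- The factorial Mecke equation. -/
lemma integral_descFactorial_mul (r : ℝ≥0) : ∀ (k : ℕ) {h : ℕ → ℝ} {B : ℝ}, (∀ n, |h n| ≤ B) →
    ∫ n, (n.descFactorial k : ℝ) * h (n - k) ∂poissonMeasure r =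
      (r : ℝ) ^ k * ∫ n, h n ∂poissonMeasure r
  | 0, h, B, _ => by simp
  | k + 1, h, B, hb => by
    have hint : Integrable (fun n : ℕ => (n.descFactorial k : ℝ) * h (n - k)) (poissonMeasure r) :=
      integrable_of_pow_bound r (B := B) k fun n => by
        rw [abs_mul, Nat.abs_cast, mul_comm]
        exact mul_le_mul (hb _) (by exact_mod_cast Nat.descFactorial_le_pow n k)
          (Nat.cast_nonneg _) ((abs_nonneg _).trans (hb 0))
    set F : ℕ → ℝ := fun n => ((n - 1).descFactorial k : ℝ) * h (n - 1 - k)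
    have e : ∀ n : ℕ, (n.descFactorial (k + 1) : ℝ) * h (n - (k + 1)) = (n : ℝ) * F n := by
      intro n
      cases n with
      | zero => simp
      | succ n =>
        simp only [F, Nat.succ_descFactorial_succ, Nat.add_sub_cancel, Nat.add_sub_add_right]
        push_cast
        ring
    simp only [e]
    rw [Toolkit.integral_count_mul (f := F) (by simpa [F] using hint)]
    simp only [F, Nat.add_sub_cancel]
    rw [integral_descFactorial_mul r k hb]
    ring

/-- Sums over tuples are sums over tuples without repetition, up to few terms. -/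
lemma abs_sum_sub_injective {k m : ℕ} (F : (Fin k → Fin m) → ℝ) (c : ℝ) {B : ℝ}
    (hB : ∀ t, |F t| ≤ B) (hc : ∀ t, Function.Injective t → F t = c) :
    |∑ t, F t - (m.descFactorial k : ℝ) * c| ≤
      B * ((m : ℝ) ^ k - (m.descFactorial k : ℝ)) := by
  classical
  set P : (Fin k → Fin m) → Prop := fun t => Function.Injective t
  have hcard : ((Finset.univ.filter P).card : ℝ) = (m.descFactorial k : ℝ) := by
    congr 1
    rw [← Fintype.card_subtype, Fintype.card_congr (Equiv.subtypeInjectiveEquivEmbedding _ _),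
      Fintype.card_embedding_eq, Fintype.card_fin, Fintype.card_fin]
  rw [← Finset.sum_filter_add_sum_filter_not Finset.univ P,
    Finset.sum_congr rfl fun t ht => hc t (Finset.mem_filter.1 ht).2, Finset.sum_const,
    nsmul_eq_mul, hcard, add_sub_cancel_left]
  refine ((Finset.abs_sum_le_sum_abs _ _).trans (Finset.sum_le_sum fun t _ => hB t)).trans_eq ?_
  rw [Finset.sum_const, nsmul_eq_mul, mul_comm]
  congr 1
  have h := Finset.card_filter_add_card_filter_not (s := Finset.univ) P
  rw [Finset.card_univ, Fintype.card_fun, Fintype.card_fin, Fintype.card_fin] at h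
  have h' := congrArg (fun x : ℕ => (x : ℝ)) h
  push_cast at h'
  linarith

/-- The alternating Taylor series of `exp (-x)`. -/
def expPart (K : ℕ) (x : ℝ) : ℝ :=
  ∑ k ∈ Finset.range K, (-x) ^ k / ((k.factorial : ℕ) : ℝ)

lemma hasDerivAt_expPart (K : ℕ) (x : ℝ) : HasDerivAt (expPart (K + 1)) (-expPart K x) x := by
  induction K with
  | zero =>
    have e : expPart 1 = fun _ => (1 : ℝ) := funext fun y => by simp [expPart]
    rw [e]
    simpa [expPart] using hasDerivAt_const x (1 : ℝ)
  | succ K ih =>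
    have e : ∀ L y, expPart (L + 1) y = expPart L y + (-y) ^ L / ((L.factorial : ℕ) : ℝ) :=
      fun L y => Finset.sum_range_succ _ L
    have e' : expPart (K + 2) = fun y => expPart (K + 1) y +
        (-y) ^ (K + 1) / (((K + 1).factorial : ℕ) : ℝ) := funext fun y => e (K + 1) y
    rw [e', e K x]
    refine (ih.add (((hasDerivAt_neg x).pow (K + 1)).div_const _)).congr_deriv ?_
    rw [Nat.factorial_succ]
    simp only [Nat.add_sub_cancel]
    push_cast
    field_simp
    ring

/-- Remainders of the series of `exp (-x)` for `0 ≤ x`. -/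
lemma abs_exp_neg_sub_expPart (K : ℕ) : ∀ x : ℝ, 0 ≤ x →
    0 ≤ (-1 : ℝ) ^ K * (Real.exp (-x) - expPart K x) ∧
      (-1 : ℝ) ^ K * (Real.exp (-x) - expPart K x) ≤ x ^ K / ((K.factorial : ℕ) : ℝ) := by
  induction K with
  | zero =>
    intro x hx
    simp [expPart, (Real.exp_pos (-x)).le, Real.exp_le_one_iff, hx]
  | succ K ih =>
    intro x hx
    set u : ℝ → ℝ := fun y => (-1 : ℝ) ^ (K + 1) * (Real.exp (-y) - expPart (K + 1) y)
    have hu : ∀ y, HasDerivAt u ((-1 : ℝ) ^ K * (Real.exp (-y) - expPart K y)) y := fun y =>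
      (((hasDerivAt_neg y).exp.sub (hasDerivAt_expPart K y)).const_mul _).congr_deriv
        (by simp only [pow_succ]; ring)
    have hu0 : u 0 = 0 := by simp [u, expPart, Finset.sum_range_succ', zero_pow]
    set w : ℝ → ℝ := fun y => y ^ (K + 1) / (((K + 1).factorial : ℕ) : ℝ) - u y
    have hw : ∀ y, HasDerivAt w
        (y ^ K / ((K.factorial : ℕ) : ℝ) - (-1 : ℝ) ^ K * (Real.exp (-y) - expPart K y)) y :=
      fun y => (((hasDerivAt_pow (K + 1) y).div_const _).sub (hu y)).congr_deriv (by
        rw [Nat.factorial_succ]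
        simp only [Nat.add_sub_cancel]
        push_cast
        field_simp)
    have mono : ∀ (F F' : ℝ → ℝ), (∀ y, HasDerivAt F (F' y) y) → (∀ y, 0 ≤ y → 0 ≤ F' y) →
        F 0 ≤ F x := fun F F' hF hp =>
      monotoneOn_of_hasDerivWithinAt_nonneg (convex_Ici (0 : ℝ))
        (fun y _ => (hF y).continuousAt.continuousWithinAt)
        (fun y _ => (hF y).hasDerivWithinAt)
        (fun y hy => hp y (le_of_lt (by simpa using hy))) Set.self_mem_Ici hx hx
    have h1 := mono u _ hu fun y hy => (ih y hy).1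
    have h2 := mono w _ hw fun y hy => sub_nonneg.2 (ih y hy).2
    rw [hu0] at h1
    simp only [w, hu0, zero_pow (Nat.succ_ne_zero K), zero_div, sub_zero] at h2
    exact ⟨h1, by linarith⟩

lemma abs_exp_neg_sub_le (K : ℕ) {x : ℝ} (hx : 0 ≤ x) :
    |Real.exp (-x) - expPart K x| ≤ x ^ K / ((K.factorial : ℕ) : ℝ) := by
  obtain ⟨h1, h2⟩ := abs_exp_neg_sub_expPart K x hx
  rcases neg_one_pow_eq_or ℝ K with e | e <;> rw [e] at h1 h2 <;> rw [abs_le] <;>
    constructor <;> linarith [div_nonneg (pow_nonneg hx K) (Nat.cast_nonneg (α := ℝ) K.factorial)]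

end Vale.Agent.P157.Parisi.Site
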