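import Vale.Agent.P157.Parisi.Site.Count
import Vale.Agent.P157.Parisi.Site.Gauss
import Vale.Agent.P157.Parisi.Statements

/-!
Replica means of pattern observables in the perturbed system, by the Mecke equation.
-/

noncomputable section

open MeasureTheory ProbabilityTheory Filter Topology Finset
open scoped BigOperators NNReal

namespace Vale.Agent.P157.Parisi.Site

variable {N L n k m : ℕ}

/-- The Gibbs weights of an energy. -/
def gib (E : Cube N → ℝ) (σ : Cube N) : ℝ := Real.exp (E σ) / ∑ τ, Real.exp (E τ)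

lemma sum_exp_pos (E : Cube N → ℝ) : 0 < ∑ τ, Real.exp (E τ) :=
  Finset.sum_pos (fun τ _ => Real.exp_pos _) Finset.univ_nonempty

lemma gib_nonneg (E : Cube N → ℝ) (σ : Cube N) : 0 ≤ gib E σ :=
  div_nonneg (Real.exp_pos _).le (sum_exp_pos E).le

lemma sum_gib (E : Cube N → ℝ) : ∑ σ, gib E σ = 1 := by
  simp only [gib, ← Finset.sum_div, div_self (sum_exp_pos E).ne']

lemma gib_tilt (E h : Cube N → ℝ) (σ : Cube N) :
    gib E σ * Real.exp (h σ) / (∑ τ, gib E τ * Real.exp (h τ)) = gib (fun τ => E τ + h τ) σ := by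
  have := (sum_exp_pos E).ne'
  simp only [gib, div_mul_eq_mul_div, ← Finset.sum_div, ← Real.exp_add]
  field_simp

/-- The mean of a function of replicas. -/
def rep (n : ℕ) (E : Cube N → ℝ) (Φ : (Fin n → Cube N) → ℝ) : ℝ :=
  ∑ σ : Fin n → Cube N, (∏ l, gib E (σ l)) * Φ σ

lemma rep_const (E : Cube N → ℝ) (c : ℝ) : rep n E (fun _ => c) = c := by
  rw [rep, ← Finset.sum_mul, ← Fintype.sum_pow, sum_gib, one_pow, one_mul]

lemma rep_mono (E : Cube N → ℝ) {Φ Φ' : (Fin n → Cube N) → ℝ} (h : ∀ σ, Φ σ ≤ Φ' σ) :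
    rep n E Φ ≤ rep n E Φ' :=
  Finset.sum_le_sum fun σ _ =>
    mul_le_mul_of_nonneg_left (h σ) (Finset.prod_nonneg fun l _ => gib_nonneg _ _)

lemma abs_rep_le (E : Cube N → ℝ) {Φ : (Fin n → Cube N) → ℝ} {B : ℝ} (h : ∀ σ, |Φ σ| ≤ B) :
    |rep n E Φ| ≤ B :=
  abs_le.2 ⟨(rep_const (n := n) E (-B)).ge.trans (rep_mono E fun σ => (abs_le.1 (h σ)).1),
    (rep_mono E fun σ => (abs_le.1 (h σ)).2).trans_eq (rep_const E B)⟩

lemma rep_sum {ι : Type*} (s : Finset ι) (E : Cube N → ℝ) (Φ : ι → (Fin n → Cube N) → ℝ) :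
    rep n E (fun σ => ∑ i ∈ s, Φ i σ) = ∑ i ∈ s, rep n E (Φ i) := by
  simp only [rep, Finset.mul_sum]
  exact Finset.sum_comm

lemma rep_const_mul (E : Cube N → ℝ) (c : ℝ) (Φ : (Fin n → Cube N) → ℝ) :
    rep n E (fun σ => c * Φ σ) = c * rep n E Φ := by
  simp only [rep, Finset.mul_sum]
  exact Finset.sum_congr rfl fun σ _ => by ring

lemma rep_sub (E : Cube N → ℝ) (Φ Φ' : (Fin n → Cube N) → ℝ) :
    rep n E (fun σ => Φ σ - Φ' σ) = rep n E Φ - rep n E Φ' := by
  simp only [rep, mul_sub, Finset.sum_sub_distrib]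

lemma rep_one (E : Cube N → ℝ) (Φ : Cube N → ℝ) :
    rep 1 E (fun σ => Φ (σ 0)) = ∑ σ, gib E σ * Φ σ := by
  rw [rep, ← (Equiv.funUnique (Fin 1) (Cube N)).symm.sum_comp]
  exact Finset.sum_congr rfl fun σ _ => by simp

lemma measurable_rep {α : Type*} [MeasurableSpace α] {E : α → Cube N → ℝ}
    {Φ : α → (Fin n → Cube N) → ℝ} (hE : ∀ σ, Measurable fun a => E a σ)
    (hΦ : ∀ σ, Measurable fun a => Φ a σ) : Measurable fun a => rep n (E a) (Φ a) := by
  unfold rep gib
  exact Finset.measurable_sum _ fun σ _ => (Finset.measurable_prod _ fun l _ =>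
    (hE _).exp.div (Finset.measurable_sum _ fun τ _ => (hE τ).exp)).mul (hΦ σ)

/-- The values of one pattern at the replicas. -/
def fld (g : Fin N → ℝ) (σ : Fin n → Cube N) : Fin n → ℝ := fun l => dot g (unitVec (σ l))

lemma measurable_dot_left {ι : Type*} [Fintype ι] (u : ι → ℝ) :
    Measurable fun g : ι → ℝ => dot g u :=
  measurable_dot.comp (measurable_id.prodMk measurable_const)

lemma measurable_fld (σ : Fin n → Cube N) : Measurable fun g : Fin N → ℝ => fld g σ :=
  measurable_pi_lambda _ fun l => measurable_dot_left _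

/-- The energy with finitely many patterns. -/
def finH (f : ℝ → ℝ) (s : ℝ) (x : Fin L → ℝ) (q : (Fin m → Fin N → ℝ) × (PertIdx N L → ℝ))
    (σ : Cube N) : ℝ :=
  (∑ i, f (dot (q.1 i) (unitVec σ))) + pertH s x q.2 σ

variable {f : ℝ → ℝ} {A s : ℝ} {x : Fin L → ℝ}

lemma _root_.Vale.Agent.P157.Parisi.Smooth.continuous (hf : Smooth f A) : Continuous f :=
  hf.d0.continuous

lemma measurable_finH (hf : Continuous f) (σ : Cube N) :
    Measurable fun q : (Fin m → Fin N → ℝ) × (PertIdx N L → ℝ) => finH f s x q σ := by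
  unfold finH pertH
  refine (Finset.measurable_sum _ fun i _ => hf.measurable.comp
    ((measurable_dot_left _).comp ((measurable_pi_apply i).comp measurable_fst))).add ?_
  fun_prop

/-- The law of `m` patterns and the perturbation. -/
def patLaw (N L m : ℕ) : Measure ((Fin m → Fin N → ℝ) × (PertIdx N L → ℝ)) :=
  (Measure.pi fun _ : Fin m => gam (Fin N)).prod (gam (PertIdx N L))

instance : IsProbabilityMeasure (patLaw N L m) := by unfold patLaw; infer_instance

instance (μ : ℝ) : IsProbabilityMeasure (disLaw N L μ) := by unfold disLaw; infer_instance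

lemma abs_integral_le {α : Type*} [MeasurableSpace α] {ν : Measure α} [IsProbabilityMeasure ν]
    {F : α → ℝ} {B : ℝ} (h : ∀ a, |F a| ≤ B) : |∫ a, F a ∂ν| ≤ B :=
  (norm_integral_le_of_norm_le_const (C := B) (μ := ν) (f := F) (ae_of_all _ h)).trans (by simp)

/-- The first patterns of a disorder. -/
def headOf (d : Dis N L) : (Fin d.1 → Fin N → ℝ) × (PertIdx N L → ℝ) :=
  (fun i => d.2.1 i.val, d.2.2)

lemma totalH_eq (f : ℝ → ℝ) (s : ℝ) (x : Fin L → ℝ) (d : Dis N L) :
    totalH f s x d = finH f s x (headOf d) := by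
  funext σ
  simp only [totalH, finH, headOf, Finset.sum_range]

lemma measurable_headOf_apply {Ψ : (m : ℕ) → (Fin m → Fin N → ℝ) × (PertIdx N L → ℝ) → ℝ}
    (hΨ : ∀ m, Measurable (Ψ m)) : Measurable fun d : Dis N L => Ψ d.1 (headOf d) :=
  measurable_from_prod_countable_right fun m => (hΨ m).comp
    ((measurable_pi_lambda _ fun i : Fin m => (measurable_pi_apply (i : ℕ)).comp measurable_fst).prodMk
      measurable_snd)

/-- The disorder law, reduced to the patterns present. -/
lemma integral_disLaw {μ : ℝ} {Ψ : (m : ℕ) → (Fin m → Fin N → ℝ) × (PertIdx N L → ℝ) → ℝ}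
    (hΨ : ∀ m, Measurable (Ψ m)) {Bd : ℕ → ℝ} (hB : ∀ m q, |Ψ m q| ≤ Bd m)
    (hBi : Integrable Bd (poissonMeasure μ.toNNReal)) :
    Integrable (fun d : Dis N L => Ψ d.1 (headOf d)) (disLaw N L μ) ∧
      ∫ d : Dis N L, Ψ d.1 (headOf d) ∂disLaw N L μ =
        ∫ m, ∫ q, Ψ m q ∂patLaw N L m ∂poissonMeasure μ.toNNReal := by
  have hi : Integrable (fun d : Dis N L => Ψ d.1 (headOf d)) (disLaw N L μ) :=
    (hBi.comp_fst _).mono' (measurable_headOf_apply hΨ).aestronglyMeasurable
      (ae_of_all _ fun d => hB _ _)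
  refine ⟨hi, ?_⟩
  rw [disLaw] at hi ⊢
  rw [integral_prod _ hi]
  refine integral_congr_ae (ae_of_all _ fun m => ?_)
  have hmp := (Vale.Agent.P168.Limit.Cavity.measurePreserving_marginal (gam (Fin N))
    (fun i : Fin m => (i : ℕ)) Fin.val_injective).prod
    (MeasurePreserving.id (gam (PertIdx N L)))
  show _ = ∫ q, Ψ m q ∂patLaw N L m
  rw [patLaw, ← hmp.map_eq, integral_map hmp.measurable.aemeasurable (hΨ m).aestronglyMeasurable]
  rfl

lemma measurePreserving_append {X : Type*} [MeasurableSpace X] (ν : Measure X)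
    [IsProbabilityMeasure ν] (a b : ℕ) :
    MeasurePreserving (fun p : (Fin a → X) × (Fin b → X) => Fin.append p.1 p.2)
      ((Measure.pi fun _ => ν).prod (Measure.pi fun _ => ν)) (Measure.pi fun _ => ν) := by
  have hm : Measurable fun p : (Fin a → X) × (Fin b → X) => Fin.append p.1 p.2 :=
    measurable_pi_lambda _ fun i => by
      induction i using Fin.addCases with
      | left i => simp only [Fin.append_left]; fun_prop
      | right i => simp only [Fin.append_right]; fun_prop
  refine ⟨hm, (Measure.pi_eq fun S hS => ?_).symm⟩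
  rw [Measure.map_apply hm (MeasurableSet.univ_pi hS)]
  have : (fun p : (Fin a → X) × (Fin b → X) => Fin.append p.1 p.2) ⁻¹' Set.univ.pi S =
      (Set.univ.pi fun i => S (Fin.castAdd b i)) ×ˢ (Set.univ.pi fun i => S (Fin.natAdd a i)) := by
    ext p
    simp only [Set.mem_preimage, Set.mem_pi, Set.mem_univ, forall_true_left, Set.mem_prod]
    refine ⟨fun h => ⟨fun i => by simpa using h (Fin.castAdd b i),
      fun i => by simpa using h (Fin.natAdd a i)⟩, fun h i => ?_⟩
    induction i using Fin.addCases with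
    | left i => simpa using h.1 i
    | right i => simpa using h.2 i
  rw [this, Measure.prod_prod, Measure.pi_pi, Measure.pi_pi, Fin.prod_univ_add]

/-- Replica mean of observables of chosen patterns. -/
def tupMean (f : ℝ → ℝ) (s : ℝ) (x : Fin L → ℝ) (N m : ℕ) (t : Fin k → Fin m)
    (G : Fin k → (Fin n → ℝ) → ℝ) : ℝ :=
  ∫ q, rep n (finH f s x q) (fun σ : Fin n → Cube N => ∏ i, G i (fld (q.1 (t i)) σ))
    ∂patLaw N L m

/-- Replica mean of observables of fresh patterns. -/
def patG (f : ℝ → ℝ) (s : ℝ) (x : Fin L → ℝ) (N : ℕ) (μ : ℝ)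
    (G : Fin k → (Fin n → ℝ) → ℝ) : ℝ :=
  ∫ m, tupMean f s x N (m + k) (Fin.natAdd m) G ∂poissonMeasure μ.toNNReal

variable {G : Fin k → (Fin n → ℝ) → ℝ} {B : ℝ}

lemma abs_prod_fld_le (hb : ∀ i v, |G i v| ≤ B) (c : Fin k → Fin N → ℝ) (σ : Fin n → Cube N) :
    |∏ i, G i (fld (c i) σ)| ≤ B ^ k := by
  rw [Finset.abs_prod]
  exact (Finset.prod_le_prod (fun i _ => abs_nonneg _) fun i _ => hb i _).trans_eq (by simp)

lemma measurable_prod_fld (hG : ∀ i, Measurable (G i)) (σ : Fin n → Cube N) (t : Fin k → Fin m) :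
    Measurable fun q : (Fin m → Fin N → ℝ) × (PertIdx N L → ℝ) =>
      ∏ i, G i (fld (q.1 (t i)) σ) :=
  Finset.measurable_prod _ fun i _ => (hG i).comp
    ((measurable_fld σ).comp ((measurable_pi_apply (t i)).comp measurable_fst))

lemma abs_tupMean_le (hb : ∀ i v, |G i v| ≤ B) (t : Fin k → Fin m) :
    |tupMean f s x N m t G| ≤ B ^ k :=
  abs_integral_le fun q => abs_rep_le _ fun σ => abs_prod_fld_le hb _ σ

lemma tupMean_injective (hf : Continuous f) (hG : ∀ i, Measurable (G i)) {a : ℕ}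
    {t : Fin k → Fin (a + k)} (ht : Function.Injective t) :
    tupMean f s x N (a + k) t G = tupMean f s x N (a + k) (Fin.natAdd a) G := by
  classical
  have ht0 : Function.Injective (Fin.natAdd a : Fin k → Fin (a + k)) := fun i j h => by
    simpa [Fin.ext_iff] using h
  set π : Equiv.Perm (Fin (a + k)) :=
    ((Equiv.ofInjective _ ht0).symm.trans (Equiv.ofInjective _ ht)).extendSubtype
  have hπ : ∀ i, π (Fin.natAdd a i) = t i := by
    intro i
    have h := Equiv.extendSubtype_apply_of_mem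
      ((Equiv.ofInjective _ ht0).symm.trans (Equiv.ofInjective _ ht)) (Fin.natAdd a i)
      ⟨i, rfl⟩
    rw [h]
    simp [Equiv.ofInjective_symm_apply]
  have hmp : MeasurePreserving (fun (c : Fin (a + k) → Fin N → ℝ) i => c (π i))
      (Measure.pi fun _ => gam (Fin N)) (Measure.pi fun _ => gam (Fin N)) := by
    have h := measurePreserving_piCongrLeft (fun _ : Fin (a + k) => gam (Fin N)) π.symm
    have hc : ⇑(MeasurableEquiv.piCongrLeft (fun _ : Fin (a + k) => Fin N → ℝ) π.symm) =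
        fun (c : Fin (a + k) → Fin N → ℝ) i => c (π i) := by
      ext c i j
      obtain ⟨i', rfl⟩ := π.symm.surjective i
      simp [MeasurableEquiv.piCongrLeft_apply_apply]
    rwa [hc] at h
  have hmp' := hmp.prod (MeasurePreserving.id (gam (PertIdx N L)))
  symm
  unfold tupMean patLaw
  conv_lhs => rw [← hmp'.map_eq]
  rw [integral_map hmp'.measurable.aemeasurable (measurable_rep (measurable_finH hf)
    fun σ => measurable_prod_fld hG σ _).aestronglyMeasurable]
  refine integral_congr_ae (ae_of_all _ fun q => ?_)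
  have e : finH f s x (Prod.map (fun (c : Fin (a + k) → Fin N → ℝ) i => c (π i)) id q) =
      finH f s x q := by
    funext σ
    simp only [finH, Prod.map_fst, Prod.map_snd, id_eq]
    rw [Equiv.sum_comp π fun i => f (dot (q.1 i) (unitVec σ))]
  simp only [e, Prod.map_fst, hπ]

lemma integrand_eq (E : Cube N → ℝ) (f : ℝ → ℝ) {kk : ℕ} (g : Fin kk → Fin N → ℝ)
    (Φ : (Fin n → Cube N) → ℝ) :
    (∑ σ : Fin n → Cube N, (∏ l, gib E (σ l) * Real.exp (∑ j, f (dot (g j) (unitVec (σ l))))) *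
        Φ σ) / (∑ σ : Cube N, gib E σ * Real.exp (∑ j, f (dot (g j) (unitVec σ)))) ^ n =
      rep n (fun τ => E τ + ∑ j, f (dot (g j) (unitVec τ))) Φ := by
  rw [rep, Finset.sum_div]
  refine Finset.sum_congr rfl fun σ _ => ?_
  rw [mul_div_right_comm]
  simp only [← gib_tilt E (fun τ => ∑ j, f (dot (g j) (unitVec τ))), Finset.prod_div_distrib,
    Finset.prod_const, Finset.card_univ, Fintype.card_fin]

end Vale.Agent.P157.Parisi.Site
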