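import Mathlib

/-!
Finite cosine sums, and a truncation of `cosh` from below by such sums.
-/

noncomputable section

open Filter Topology Finset
open scoped BigOperators

namespace Vale.Agent.P157.Parisi.Site

/-- A finite cosine sum. -/
def IsTrig (φ : ℝ → ℝ) : Prop :=
  ∃ (L : ℕ) (c t : Fin L → ℝ), ∀ y, φ y = ∑ i, c i * Real.cos (t i * y)

lemma IsTrig.const (a : ℝ) : IsTrig fun _ => a :=
  ⟨1, fun _ => a, fun _ => 0, fun y => by simp⟩

lemma IsTrig.cos (s : ℝ) : IsTrig fun y => Real.cos (s * y) :=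
  ⟨1, fun _ => 1, fun _ => s, fun y => by simp⟩

lemma IsTrig.const_mul {φ : ℝ → ℝ} (h : IsTrig φ) (a : ℝ) : IsTrig fun y => a * φ y := by
  obtain ⟨L, c, t, h⟩ := h
  exact ⟨L, fun i => a * c i, t, fun y => by simp [h, Finset.mul_sum, mul_assoc]⟩

lemma IsTrig.add {φ ψ : ℝ → ℝ} (h : IsTrig φ) (h' : IsTrig ψ) : IsTrig fun y => φ y + ψ y := by
  obtain ⟨L, c, t, h⟩ := h
  obtain ⟨L', c', t', h'⟩ := h'
  exact ⟨L + L', Fin.append c c', Fin.append t t', fun y => by simp [h, h', Fin.sum_univ_add]⟩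

lemma IsTrig.mul {φ ψ : ℝ → ℝ} (h : IsTrig φ) (h' : IsTrig ψ) : IsTrig fun y => φ y * ψ y := by
  obtain ⟨L, c, t, h⟩ := h
  obtain ⟨L', c', t', h'⟩ := h'
  set e : Fin (L * L') ≃ Fin L × Fin L' := finProdFinEquiv.symm
  have half : ∀ σ : ℝ, IsTrig fun y =>
      ∑ p : Fin L × Fin L', c p.1 * c' p.2 / 2 * Real.cos ((t p.1 + σ * t' p.2) * y) := fun σ =>
    ⟨L * L', fun i => c (e i).1 * c' (e i).2 / 2, fun i => t (e i).1 + σ * t' (e i).2, fun y =>
      (e.sum_comp fun p => c p.1 * c' p.2 / 2 * Real.cos ((t p.1 + σ * t' p.2) * y)).symm⟩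
  obtain ⟨M, d, s, hd⟩ := (half 1).add (half (-1))
  refine ⟨M, d, s, fun y => ?_⟩
  show φ y * ψ y = _
  rw [← hd]
  simp only [h, h', Finset.sum_mul_sum, ← Finset.sum_add_distrib, Fintype.sum_prod_type]
  refine Finset.sum_congr rfl fun i _ => Finset.sum_congr rfl fun j _ => ?_
  simp only [one_mul, add_mul, neg_mul, Real.cos_add, Real.cos_neg, Real.sin_neg]
  ring

lemma IsTrig.pow {φ : ℝ → ℝ} (h : IsTrig φ) : ∀ k : ℕ, IsTrig fun y => φ y ^ k
  | 0 => by simpa using IsTrig.const 1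
  | k + 1 => by simpa [pow_succ] using (h.pow k).mul h

lemma IsTrig.sum {ι : Type*} (s : Finset ι) {φ : ι → ℝ → ℝ} (h : ∀ i ∈ s, IsTrig (φ i)) :
    IsTrig fun y => ∑ i ∈ s, φ i y := by
  classical
  induction s using Finset.induction with
  | empty => simpa using IsTrig.const 0
  | insert a s ha ih =>
    simp only [Finset.sum_insert ha]
    exact (h a (Finset.mem_insert_self a s)).add (ih fun i hi => h i (Finset.mem_insert_of_mem hi))

/-- A sign. -/
def sgn (b : Bool) : ℝ := if b then 1 else -1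

lemma sgn_sq (b : Bool) : sgn b ^ 2 = 1 := by cases b <;> simp [sgn]

lemma prod_cos_eq : ∀ {k : ℕ} (θ : Fin k → ℝ),
    ∏ l, Real.cos (θ l) = (∑ s : Fin k → Bool, Real.cos (∑ l, sgn (s l) * θ l)) / 2 ^ k
  | 0, θ => by simp
  | k + 1, θ => by
    rw [Fin.prod_univ_succ, prod_cos_eq fun l => θ l.succ, ← (Fin.consEquiv fun _ => Bool).sum_comp,
      Fintype.sum_prod_type, Fintype.sum_bool]
    simp only [Fin.consEquiv_apply, Fin.sum_univ_succ, Fin.cons_zero, Fin.cons_succ, sgn, if_true,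
      Bool.false_eq_true, if_false, one_mul, Real.cos_add, Real.cos_neg, Real.sin_neg,
      neg_mul, sub_neg_eq_add, pow_succ, ← Finset.sum_add_distrib]
    rw [← mul_div_assoc, Finset.mul_sum, eq_div_iff (by positivity), div_mul_eq_mul_div,
      div_eq_iff (by positivity), Finset.sum_mul, Finset.sum_mul]
    exact Finset.sum_congr rfl fun s _ => by ring

/-- Expansion of a product of cosine sums. -/
lemma prod_trig_eq {φ : ℝ → ℝ} {L : ℕ} {c t : Fin L → ℝ}
    (h : ∀ y, φ y = ∑ i, c i * Real.cos (t i * y)) {k : ℕ} (y : Fin k → ℝ) :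
    ∏ l, φ (y l) = ∑ i : Fin k → Fin L, (∏ l, c (i l)) / 2 ^ k *
      ∑ s : Fin k → Bool, Real.cos (∑ l, sgn (s l) * t (i l) * y l) := by
  simp only [h, Fintype.prod_sum, Finset.prod_mul_distrib, prod_cos_eq, mul_assoc]
  exact Finset.sum_congr rfl fun i _ => by ring

/-! ### The truncation -/

/-- Partial sums of the series of `cosh`. -/
def coshPart (K : ℕ) (x : ℝ) : ℝ := ∑ j ∈ Finset.range K, x ^ (2 * j) / (((2 * j).factorial : ℕ) : ℝ)

/-- The truncation of `cosh`. -/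
def cut (K : ℕ) (y : ℝ) : ℝ := coshPart K (K * Real.sin (y / K))

lemma isTrig_cut (K : ℕ) : IsTrig (cut K) := by
  unfold cut coshPart
  refine IsTrig.sum _ fun j _ => ?_
  have h := ((((IsTrig.cos (2 / (K : ℝ))).const_mul (-1)).add (IsTrig.const 1)).pow j).const_mul
    (((K : ℝ) ^ 2 / 2) ^ j / (((2 * j).factorial : ℕ) : ℝ))
  refine (congrArg IsTrig (funext fun y => ?_)).mp h
  have e : Real.cos (2 / (K : ℝ) * y) = 1 - 2 * Real.sin (y / K) ^ 2 := by
    rw [show 2 / (K : ℝ) * y = 2 * (y / K) by ring, Real.cos_two_mul]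
    linarith [Real.sin_sq_add_cos_sq (y / K)]
  rw [pow_mul, div_mul_eq_mul_div, ← mul_pow, e]
  congr 1
  ring_nf

lemma continuous_coshPart (K : ℕ) : Continuous (coshPart K) := by
  unfold coshPart; fun_prop

lemma continuous_cut (K : ℕ) : Continuous (cut K) :=
  (continuous_coshPart K).comp (by fun_prop)

lemma hasSum_cosh_tail (K : ℕ) (x : ℝ) :
    HasSum (fun j => x ^ (2 * (j + K)) / (((2 * (j + K)).factorial : ℕ) : ℝ)) (Real.cosh x - coshPart K x) :=
  (hasSum_nat_add_iff' K).2 (Real.hasSum_cosh x)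

lemma coshPart_le_cosh (K : ℕ) (x : ℝ) : coshPart K x ≤ Real.cosh x :=
  sum_le_hasSum _ (fun j _ => by rw [pow_mul]; positivity) (Real.hasSum_cosh x)

lemma tail_mono (K : ℕ) {x y : ℝ} (h : |x| ≤ |y|) :
    Real.cosh x - coshPart K x ≤ Real.cosh y - coshPart K y :=
  hasSum_le (fun j => by
    rw [pow_mul, pow_mul]
    gcongr ?_ ^ _ / _
    exact sq_le_sq.2 h) (hasSum_cosh_tail K x) (hasSum_cosh_tail K y)

lemma abs_scaledSin_le (K : ℕ) (y : ℝ) : |(K : ℝ) * Real.sin (y / K)| ≤ |y| := by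
  rcases Nat.eq_zero_or_pos K with rfl | hK
  · simp
  have hK' : (0 : ℝ) < K := by exact_mod_cast hK
  rw [abs_mul, abs_of_pos hK']
  refine (mul_le_mul_of_nonneg_left Real.abs_sin_le_abs hK'.le).trans_eq ?_
  rw [abs_div, abs_of_pos hK']
  field_simp

lemma cut_le_cosh (K : ℕ) (y : ℝ) : cut K y ≤ Real.cosh y :=
  (coshPart_le_cosh K _).trans (Real.cosh_le_cosh.2 (abs_scaledSin_le K y))

lemma cut_le (K : ℕ) (y : ℝ) : cut K y ≤ Real.cosh K :=
  (coshPart_le_cosh K _).trans (Real.cosh_le_cosh.2 (by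
    rw [abs_mul]
    exact (mul_le_of_le_one_right (abs_nonneg _) (Real.abs_sin_le_one _)).trans le_rfl))

lemma one_le_cut {K : ℕ} (hK : 0 < K) (y : ℝ) : 1 ≤ cut K y := by
  refine le_trans (le_of_eq ?_) (Finset.single_le_sum (f := fun j =>
    ((K : ℝ) * Real.sin (y / K)) ^ (2 * j) / (((2 * j).factorial : ℕ) : ℝ))
    (fun j _ => by rw [pow_mul]; positivity) (Finset.mem_range.2 hK))
  simp

lemma tendsto_coshPart (x : ℝ) : Tendsto (fun K => coshPart K x) atTop (𝓝 (Real.cosh x)) :=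
  (Real.hasSum_cosh x).tendsto_sum_nat

/-- A bound for `cosh - cut K` on `[-R, R]`. -/
def gapBound (K : ℕ) (R : ℝ) : ℝ :=
  if R ≤ (K : ℝ) then
    min (Real.cosh R)
      (Real.cosh R * (Real.exp (R ^ 3 / (4 * (K : ℝ) ^ 2)) - 1) + (Real.cosh R - coshPart K R))
  else Real.cosh R

lemma measurable_gapBound (K : ℕ) : Measurable (gapBound K) := by
  have := (continuous_coshPart K).measurable
  refine Measurable.ite (measurableSet_le measurable_id measurable_const) ?_ (by fun_prop)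
  fun_prop

lemma gapBound_le_cosh (K : ℕ) (R : ℝ) : gapBound K R ≤ Real.cosh R := by
  unfold gapBound; split_ifs
  · exact min_le_left _ _
  · exact le_rfl

lemma cosh_add_le (a : ℝ) {d : ℝ} (hd : 0 ≤ d) : Real.cosh (a + d) ≤ Real.cosh a * Real.exp d := by
  rw [Real.cosh_add, ← Real.cosh_add_sinh d, mul_add]
  exact add_le_add le_rfl (mul_le_mul_of_nonneg_right (Real.sinh_lt_cosh a).le
    (Real.sinh_nonneg_iff.2 hd))

lemma sub_cube_le_sin {x : ℝ} (h0 : 0 ≤ x) (h1 : x ≤ 1) : x - x ^ 3 / 4 ≤ Real.sin x := by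
  rcases h0.eq_or_lt with rfl | h
  · simp
  · have h' := (abs_le.1 (Real.sin_bound (x := x) (by rw [abs_of_pos h]; exact h1))).1
    rw [abs_of_pos h] at h'
    have : x ^ 4 ≤ x ^ 3 := pow_le_pow_of_le_one h.le h1 (by norm_num)
    nlinarith [pow_pos h 3]

lemma abs_sub_cube_le {K : ℕ} {y : ℝ} (hy : |y| ≤ (K : ℝ)) :
    |y| - |y| ^ 3 / (4 * (K : ℝ) ^ 2) ≤ |(K : ℝ) * Real.sin (y / K)| := by
  rcases Nat.eq_zero_or_pos K with rfl | hK
  · simp_all
  have hK' : (0 : ℝ) < K := by exact_mod_cast hK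
  have h := sub_cube_le_sin (x := |y| / K) (by positivity) ((div_le_one hK').2 hy)
  rw [abs_mul, abs_of_pos hK']
  have e : |Real.sin (|y| / K)| = |Real.sin (y / K)| := by
    rcases abs_cases y with ⟨e, -⟩ | ⟨e, -⟩ <;> simp [e, neg_div]
  rw [← e]
  refine le_trans (le_of_eq ?_) (mul_le_mul_of_nonneg_left (h.trans (le_abs_self _)) hK'.le)
  field_simp

lemma cosh_sub_cut_le {K : ℕ} (hK : 0 < K) {y R : ℝ} (h : |y| ≤ R) :
    Real.cosh y - cut K y ≤ gapBound K R := by
  have hR : 0 ≤ R := (abs_nonneg y).trans h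
  have hc : Real.cosh y ≤ Real.cosh R := Real.cosh_le_cosh.2 (by rwa [abs_of_nonneg hR])
  have hcut := one_le_cut hK y
  unfold gapBound
  split_ifs with hRK
  · refine le_min (by linarith) ?_
    have h1 := abs_sub_cube_le (h.trans hRK)
    have h2 := abs_scaledSin_le K y
    have h3 := tail_mono K (x := (K : ℝ) * Real.sin (y / K)) (y := R)
      (h2.trans (by rwa [abs_of_nonneg hR]))
    have h4 : Real.cosh y ≤
        Real.cosh ((K : ℝ) * Real.sin (y / K)) * Real.exp (R ^ 3 / (4 * (K : ℝ) ^ 2)) := by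
      have hd : |y| ^ 3 / (4 * (K : ℝ) ^ 2) ≤ R ^ 3 / (4 * (K : ℝ) ^ 2) := by gcongr
      rw [← Real.cosh_abs y, ← Real.cosh_abs ((K : ℝ) * Real.sin (y / K))]
      refine le_trans ?_ (cosh_add_le _ (by positivity))
      have h0 : (0 : ℝ) ≤ R ^ 3 / (4 * (K : ℝ) ^ 2) := by positivity
      have ha := abs_nonneg ((K : ℝ) * Real.sin (y / K))
      exact Real.cosh_le_cosh.2 (abs_le_abs (by linarith) (by linarith [abs_nonneg y]))
    have h5 : Real.cosh ((K : ℝ) * Real.sin (y / K)) ≤ Real.cosh R :=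
      Real.cosh_le_cosh.2 (h2.trans (by rwa [abs_of_nonneg hR]))
    have h6 : 1 ≤ Real.exp (R ^ 3 / (4 * (K : ℝ) ^ 2)) := Real.one_le_exp (by positivity)
    unfold cut
    nlinarith
  · linarith

lemma gapBound_nonneg {K : ℕ} {R : ℝ} (hR : 0 ≤ R) : 0 ≤ gapBound K R := by
  unfold gapBound; split_ifs
  · refine le_min (Real.cosh_pos R).le (add_nonneg (mul_nonneg (Real.cosh_pos R).le ?_) ?_)
    · exact sub_nonneg.2 (Real.one_le_exp (by positivity))
    · exact sub_nonneg.2 (coshPart_le_cosh K R)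
  · exact (Real.cosh_pos R).le

lemma tendsto_gapBound {R : ℝ} (hR : 0 ≤ R) : Tendsto (fun K => gapBound K R) atTop (𝓝 0) := by
  have h1 : Tendsto (fun K : ℕ => Real.cosh R * (Real.exp (R ^ 3 / (4 * (K : ℝ) ^ 2)) - 1) +
      (Real.cosh R - coshPart K R)) atTop (𝓝 0) := by
    have ha : Tendsto (fun K : ℕ => R ^ 3 / (4 * (K : ℝ) ^ 2)) atTop (𝓝 0) :=
      tendsto_const_nhds.div_atTop (((tendsto_pow_atTop two_ne_zero).comp
        tendsto_natCast_atTop_atTop).const_mul_atTop (by norm_num))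
    simpa using ((((Real.continuous_exp.tendsto 0).comp ha).sub_const 1).const_mul
      (Real.cosh R)).add ((tendsto_coshPart R).const_sub (Real.cosh R))
  refine squeeze_zero' (Eventually.of_forall fun K => gapBound_nonneg hR) ?_ h1
  filter_upwards [tendsto_natCast_atTop_atTop.eventually (eventually_ge_atTop R)] with K hK
  rw [gapBound, if_pos hK]
  exact min_le_right _ _

end Vale.Agent.P157.Parisi.Site
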